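import Vale.Agent.P037.Hier.Main

/-!
Blowing up the family: no polynomial removal bound, also for all sufficiently large matrices.
-/

namespace Vale.Agent.P037

open Finset

variable {k n t : ℕ}

/-- Every entry becomes a constant `t × t` block. -/
def blowUp (A : Fin n → Fin n → Bool) (t : ℕ) (r c : Fin (n * t)) : Bool :=
  A r.divNat c.divNat

/-- The index with given block and offset. -/
def place (t : ℕ) (s : Fin t) (a : Fin n) : Fin (n * t) := finProdFinEquiv (a, s)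

lemma place_strictMono (s : Fin t) : StrictMono (place (n := n) t s) := by
  intro a b h
  rw [Fin.lt_def]
  simp only [place, finProdFinEquiv_apply_val]
  have : t * (a : ℕ) < t * (b : ℕ) := Nat.mul_lt_mul_of_pos_left h s.pos
  omega

lemma place_divNat (s : Fin t) (a : Fin n) : (place t s a).divNat = a :=
  congrArg Prod.fst (finProdFinEquiv.symm_apply_apply (a, s))

lemma far_blowUp {H : Fin k → Fin k → Bool} {ε : ℝ} {A : Fin n → Fin n → Bool}
    (hA : Far H ε A) (t : ℕ) : Far H ε (blowUp A t) := by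
  classical
  intro B hB
  have hfree : ∀ s : Fin t × Fin t,
      copyCount H (fun a b => B (place t s.1 a) (place t s.2 b)) = 0 := by
    intro s
    have := hB
    rw [copyCount, Nat.card_eq_zero] at this
    rcases this with h | h
    · rw [copyCount, Nat.card_eq_zero]
      refine Or.inl ⟨fun p => h.false ⟨(place t s.1 ∘ p.1.1, place t s.2 ∘ p.1.2), ?_⟩⟩
      exact ⟨(place_strictMono _).comp p.2.1, (place_strictMono _).comp p.2.2.1, p.2.2.2⟩
    · exact absurd h (not_infinite_iff_finite.2 inferInstance)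
  let e : (Σ s : Fin t × Fin t,
      {ab : Fin n × Fin n // A ab.1 ab.2 ≠ B (place t s.1 ab.1) (place t s.2 ab.2)}) →
      {rc : Fin (n * t) × Fin (n * t) // blowUp A t rc.1 rc.2 ≠ B rc.1 rc.2} :=
    fun x => ⟨(place t x.1.1 x.2.1.1, place t x.1.2 x.2.1.2), by
      simpa only [blowUp, place_divNat] using x.2.2⟩
  have he : Function.Injective e := by
    rintro ⟨⟨s1, s2⟩, ⟨⟨a, b⟩, h⟩⟩ ⟨⟨s1', s2'⟩, ⟨⟨a', b'⟩, h'⟩⟩ hh
    have h0 := congrArg Subtype.val hh
    simp only [e, place, Prod.mk.injEq, EmbeddingLike.apply_eq_iff_eq] at h0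
    obtain ⟨⟨rfl, rfl⟩, rfl, rfl⟩ := h0
    rfl
  have hsum : ∑ s : Fin t × Fin t, diffCount A (fun a b => B (place t s.1 a) (place t s.2 b))
      ≤ diffCount (blowUp A t) B := by
    simp only [diffCount]
    rw [← Nat.card_sigma]
    exact Nat.card_le_card_of_injective e he
  calc ε * ((n * t : ℕ) : ℝ) ^ 2 = ∑ _s : Fin t × Fin t, ε * (n : ℝ) ^ 2 := by
        simp only [sum_const, card_univ, Fintype.card_prod, Fintype.card_fin, nsmul_eq_mul]
        push_cast; ring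
    _ ≤ ∑ s : Fin t × Fin t,
          (diffCount A (fun a b => B (place t s.1 a) (place t s.2 b)) : ℝ) :=
        sum_le_sum fun s _ => hA _ (hfree s)
    _ ≤ (diffCount (blowUp A t) B : ℝ) := by exact_mod_cast hsum

lemma copyCount_blowUp {H : Fin (k + 1) → Fin (k + 1) → Bool}
    (hr : ∀ i : Fin k, ∃ j, H i.castSucc j ≠ H i.succ j)
    (hc : ∀ i : Fin k, ∃ j, H j i.castSucc ≠ H j i.succ)
    (A : Fin n → Fin n → Bool) (t : ℕ) :
    copyCount H (blowUp A t) ≤ copyCount H A * t ^ (2 * (k + 1)) := by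
  let e : {p : (Fin (k + 1) → Fin (n * t)) × (Fin (k + 1) → Fin (n * t)) //
      StrictMono p.1 ∧ StrictMono p.2 ∧ ∀ i j, blowUp A t (p.1 i) (p.2 j) = H i j} →
      {p : (Fin (k + 1) → Fin n) × (Fin (k + 1) → Fin n) //
        StrictMono p.1 ∧ StrictMono p.2 ∧ ∀ i j, A (p.1 i) (p.2 j) = H i j} ×
        ((Fin (k + 1) → Fin t) × (Fin (k + 1) → Fin t)) := fun p =>
    (⟨(fun i => (p.1.1 i).divNat, fun j => (p.1.2 j).divNat), by
      obtain ⟨⟨r, c⟩, h1, h2, h3⟩ := p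
      have hle : ∀ {a b : Fin (n * t)}, a ≤ b → a.divNat ≤ b.divNat := fun h => by
        rw [Fin.le_def] at h ⊢
        simpa [Fin.coe_divNat] using Nat.div_le_div_right h
      refine ⟨Fin.strictMono_iff_lt_succ.2 fun i => ?_, Fin.strictMono_iff_lt_succ.2 fun i => ?_,
        h3⟩
      · refine lt_of_le_of_ne (hle (h1 (Fin.castSucc_lt_succ (i := i))).le) fun hh => ?_
        obtain ⟨j, hj⟩ := hr i
        simp only at hh h3
        exact hj (by rw [← h3, ← h3]; simp only [blowUp, hh])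
      · refine lt_of_le_of_ne (hle (h2 (Fin.castSucc_lt_succ (i := i))).le) fun hh => ?_
        obtain ⟨j, hj⟩ := hc i
        simp only at hh h3
        exact hj (by rw [← h3, ← h3]; simp only [blowUp, hh])⟩,
      (fun i => (p.1.1 i).modNat, fun j => (p.1.2 j).modNat))
  have he : Function.Injective e := by
    rintro ⟨⟨r, c⟩, h⟩ ⟨⟨r', c'⟩, h'⟩ hh
    simp only [e, Prod.mk.injEq, Subtype.mk.injEq] at hh
    obtain ⟨⟨h1, h2⟩, h3, h4⟩ := hh
    refine Subtype.ext (Prod.ext (funext fun i => ?_) (funext fun i => ?_))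
    · exact finProdFinEquiv.symm.injective (Prod.ext (congrFun h1 i) (congrFun h3 i))
    · exact finProdFinEquiv.symm.injective (Prod.ext (congrFun h2 i) (congrFun h4 i))
  refine (Nat.card_le_card_of_injective e he).trans (le_of_eq ?_)
  rw [Nat.card_prod, Nat.card_prod, Nat.card_fun]
  simp only [Nat.card_eq_fintype_card (α := Fin t), Nat.card_eq_fintype_card (α := Fin (k + 1)),
    Fintype.card_fin, copyCount]
  ring

namespace Hier

open Filter Topology

/-- The family beats every polynomial bound, at every size at which it occurs. -/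
lemma beats_power {c C : ℝ} (hc : 0 < c) : ∃ L : ℕ, 1 ≤ L ∧
    1 / (3 * (4 * (L : ℝ) + 16) ^ 2) < 1 ∧
    ∀ m x : ℝ, 0 < m → x * 2 ^ L ≤ m ^ 10 →
      x < c * (1 / (3 * (4 * (L : ℝ) + 16) ^ 2)) ^ C * m ^ 10 := by
  set K := ⌈C⌉₊ with hK
  have t := tendsto_pow_const_div_const_pow_of_one_lt (2 * K) (r := (2 : ℝ)) (by norm_num)
  obtain ⟨L, hL, hlt⟩ : ∃ L : ℕ, 1 ≤ L ∧ (L : ℝ) ^ (2 * K) / 2 ^ L < c / 1200 ^ K := by
    have e := (t.eventually_lt_const (show (0 : ℝ) < c / 1200 ^ K by positivity)).and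
      (eventually_ge_atTop 1)
    obtain ⟨L, h1, h2⟩ := e.exists
    exact ⟨L, h2, h1⟩
  rw [div_lt_div_iff₀ (by positivity) (by positivity)] at hlt
  have hL' : (1 : ℝ) ≤ L := by exact_mod_cast hL
  set b : ℝ := 3 * (4 * (L : ℝ) + 16) ^ 2 with hb
  have hb1 : 1 < b := by rw [hb]; nlinarith
  have hb0 : (0 : ℝ) < b := by linarith
  have hε : 0 < 1 / b := by positivity
  have hε1 : 1 / b < 1 := by rw [div_lt_one hb0]; exact hb1
  refine ⟨L, hL, hε1, fun m x hm hx => ?_⟩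
  have hpow : (1 / b) ^ K ≤ (1 / b) ^ C := by
    rw [← Real.rpow_natCast]
    exact Real.rpow_le_rpow_of_exponent_ge hε hε1.le (Nat.le_ceil C)
  have h6 : b ^ K ≤ 1200 ^ K * (L : ℝ) ^ (2 * K) := by
    rw [pow_mul, ← mul_pow]
    apply pow_le_pow_left₀ hb0.le
    rw [hb]; nlinarith
  have h4 : b ^ K < c * 2 ^ L := by linarith
  have h5 : 1 < c * (1 / b) ^ C * 2 ^ L := by
    calc (1 : ℝ) < c * (1 / b) ^ K * 2 ^ L := by
          rw [div_pow, one_pow, mul_one_div, div_mul_eq_mul_div, one_lt_div (by positivity)]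
          exact h4
      _ ≤ c * (1 / b) ^ C * 2 ^ L := by gcongr
  have h2 : (0 : ℝ) < 2 ^ L := by positivity
  refine lt_of_mul_lt_mul_right (lt_of_le_of_lt hx ?_) h2.le
  nlinarith [pow_pos hm 10]

/-- A pattern with a superpolynomial removal function on arbitrarily large matrices. -/
theorem not_polynomial_removal_large :
    ∃ H : Fin 5 → Fin 5 → Bool,
      (∀ L : ℕ, 1 ≤ L → ∀ N : ℕ, ∃ n : ℕ, N ≤ n ∧ 1 ≤ n ∧ ∃ A : Fin n → Fin n → Bool,
        Far H (1 / (3 * (4 * (L : ℝ) + 16) ^ 2)) A ∧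
          (copyCount H A : ℝ) * 2 ^ L ≤ (n : ℝ) ^ 10) ∧
      (¬ ∃ c C : ℝ, 0 < c ∧ 0 < C ∧ ∀ ε : ℝ, 0 < ε → ε < 1 → ∃ N : ℕ, ∀ n : ℕ, N ≤ n →
        ∀ A : Fin n → Fin n → Bool, Far H ε A →
          c * ε ^ C * (n : ℝ) ^ (2 * 5) ≤ (copyCount H A : ℝ)) ∧
      ¬ ∃ c C : ℝ, 0 < c ∧ 0 < C ∧ ∀ n : ℕ, 1 ≤ n → ∀ ε : ℝ, 0 < ε → ε < 1 →
        ∀ A : Fin n → Fin n → Bool, Far H ε A →
          c * ε ^ C * (n : ℝ) ^ (2 * 5) ≤ (copyCount H A : ℝ) := by
  have hr : ∀ i : Fin 4, ∃ j, pat i.castSucc j ≠ pat i.succ j := by decide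
  have hc : ∀ i : Fin 4, ∃ j, pat j i.castSucc ≠ pat j i.succ := by decide
  have large : ∀ L : ℕ, 1 ≤ L → ∀ N : ℕ, ∃ n : ℕ, N ≤ n ∧ 1 ≤ n ∧ ∃ A : Fin n → Fin n → Bool,
      Far pat (1 / (3 * (4 * (L : ℝ) + 16) ^ 2)) A ∧
        (copyCount pat A : ℝ) * 2 ^ L ≤ (n : ℝ) ^ 10 := by
    intro L hL N
    have hs : 1 ≤ side L * 2 ^ L := Nat.mul_pos (by simp [side]) (Nat.two_pow_pos L)
    refine ⟨side L * 2 ^ L * (N + 1), ?_, Nat.mul_pos hs (Nat.succ_pos N),
      blowUp (mat L) (N + 1), far_blowUp far_mat_real _, ?_⟩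
    · calc N ≤ 1 * (N + 1) := by omega
        _ ≤ _ := Nat.mul_le_mul_right _ hs
    · have h1 : copyCount pat (blowUp (mat L) (N + 1)) * 2 ^ L
          ≤ (side L * 2 ^ L * (N + 1)) ^ 10 := by
        calc copyCount pat (blowUp (mat L) (N + 1)) * 2 ^ L
            ≤ copyCount pat (mat L) * (N + 1) ^ (2 * (4 + 1)) * 2 ^ L :=
              Nat.mul_le_mul_right _ (copyCount_blowUp hr hc _ _)
          _ = copyCount pat (mat L) * 2 ^ L * (N + 1) ^ 10 := by ring
          _ ≤ (side L * 2 ^ L) ^ 10 * (N + 1) ^ 10 :=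
              Nat.mul_le_mul_right _ (copyCount_mat_le hL)
          _ = _ := by rw [mul_pow (side L * 2 ^ L)]
      exact_mod_cast h1
  have main : ∀ c C : ℝ, 0 < c → (∀ ε : ℝ, 0 < ε → ε < 1 → ∃ N : ℕ, ∀ n : ℕ, N ≤ n →
      ∀ A : Fin n → Fin n → Bool, Far pat ε A →
        c * ε ^ C * (n : ℝ) ^ (2 * 5) ≤ (copyCount pat A : ℝ)) → False := by
    intro c C hc0 h
    obtain ⟨L, hL, hε1, hbeat⟩ := beats_power (C := C) hc0
    obtain ⟨N, hN⟩ := h _ (by positivity) hε1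
    obtain ⟨n, hn, hn1, A, hA, hcount⟩ := large L hL N
    exact absurd (hN n hn A hA) (not_le.2 (hbeat n _ (by exact_mod_cast hn1) hcount))
  refine ⟨pat, large, fun ⟨c, C, hc0, _, h⟩ => main c C hc0 h, fun ⟨c, C, hc0, _, h⟩ =>
    main c C hc0 fun ε h0 h1 => ⟨1, fun n hn A hA => h n hn ε h0 h1 A hA⟩⟩

end Hier

end Vale.Agent.P037
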