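import Vale.Agent.P037.Hier.Table

/-!
Every copy of the pattern has its first and third row in one leaf.
-/

namespace Vale.Agent.P037.Hier

variable {L : ℕ} {r1 r2 r3 r4 : RK} {q c y0 y y2 : CK}

/-- The first four rows and all five columns of a copy, by kinds. -/
structure Quad (L : ℕ) (r1 r2 r3 r4 : RK) (q c y0 y y2 : CK) : Prop where
  o1 : r1.Ok L
  o2 : r2.Ok L
  o3 : r3.Ok L
  o4 : r4.Ok L
  oq : q.Ok L
  oc : c.Ok L
  o0 : y0.Ok L
  oy : y.Ok L
  oz : y2.Ok L
  l12 : r1.Le r2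
  l23 : r2.Le r3
  l34 : r3.Le r4
  lqc : q.Le c
  lc0 : c.Le y0
  l0y : y0.Le y
  lyz : y.Le y2
  q1 : ent L r1 q = false
  c1 : ent L r1 c = true
  a1 : ent L r1 y0 = true
  y1 : ent L r1 y = true
  z1 : ent L r1 y2 = true
  q2 : ent L r2 q = true
  c2 : ent L r2 c = true
  a2 : ent L r2 y0 = true
  y2' : ent L r2 y = false
  z2 : ent L r2 y2 = true
  q3 : ent L r3 q = false
  c3 : ent L r3 c = true
  a3 : ent L r3 y0 = true
  y3 : ent L r3 y = true
  z3 : ent L r3 y2 = true
  q4 : ent L r4 q = true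
  c4 : ent L r4 c = true
  a4 : ent L r4 y0 = false
  y4 : ent L r4 y = true
  z4 : ent L r4 y2 = false

/-- The first and the third row are local and in one leaf. -/
def SameLeaf (r1 r3 : RK) : Prop := ∃ j j' u, r1 = .loc j u ∧ r3 = .loc j' u

lemma case_top (h : Quad L r1 r2 r3 r4 q c y0 y y2) (h4 : r4.rank ≤ 1) : False := by
  have hq1 := h.q1; have hq2 := h.q2; have hq3 := h.q3; have hq4 := h.q4
  have := h.l12.1; have := h.l23.1; have := h.l34.1
  rcases r1 <;> rcases r2 <;> simp at * <;> (try omega) <;>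
    rcases r3 <;> simp at * <;> (try omega) <;>
    rcases r4 <;> simp_all

lemma case_gx1 (h : Quad L r1 r2 r3 .gx1 q c y0 y y2) : False := by
  have h12 := h.l12.1; have h23 := h.l23.1; have h34 := h.l34.1
  have hlc := h.lqc.1; have hl0 := h.lc0.1; have hly := h.l0y.1
  have hq := h.q4; have ha := h.a4; have hy := h.y4
  rcases q with _ | _ | _ | _ | _ | ⟨i, v⟩ | _ | _ | _ | _ | _ <;> simp at hq
  · have hq1 := h.q1
    rcases r1 <;> simp at * <;> omega
  · rcases y <;> simp at * <;> rcases y0 <;> simp at * <;> omega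

lemma case_gxo1 (hL : 1 ≤ L) (h : Quad L r1 r2 r3 .gxo1 q c y0 y y2) : False := by
  have h12 := h.l12.1; have h23 := h.l23.1; have h34 := h.l34.1
  have hlc := h.lqc.1; have hl0 := h.lc0.1; have hly := h.l0y.1
  have hq := h.q4; have hc := h.c4; have hy := h.y4
  have hq1 := h.q1; have hc1 := h.c1
  have hr1 : r1.rank ≤ 4 := le_trans h12 (le_trans h23 h34)
  have hr2 : r2.rank ≤ 4 := le_trans h23 h34
  rcases q with _ | _ | _ | _ | _ | ⟨i, v⟩ | _ | _ | _ | _ | _ <;> simp at hq
  · rcases r1 <;> simp at hq1 <;> simp at hr1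
  · -- `q` is the left outer column, so the second row equals the fourth on `y`
    have hq2 := h.q2; have hy2 := h.y2'; have o2 := h.o2; have oy := h.oy
    simp at hlc
    rcases r2 with _ | _ | ⟨j, u⟩ | _ | _ | _ | _ | _ <;> simp at hq2 <;>
      rcases y with _ | _ | _ | _ | _ | ⟨iy, vy⟩ | _ | _ | _ | _ | _ <;> simp at hy hy2 <;>
      (try omega)
    all_goals
      subst_vars
      simp only [RK.Ok, CK.Ok] at o2 oy
      simp [pre_zero o2.2, pre_zero oy.2] at hy2
  · subst hq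
    have o1 := h.o1; have oq := h.oq; have oc := h.oc
    simp only [CK.Ok] at oq
    simp at hlc
    rcases c with _ | _ | _ | _ | _ | ⟨i', v'⟩ | _ | _ | _ | _ | _ <;>
      simp at hc <;> simp at hlc <;>
      rcases r1 with _ | _ | ⟨j, u⟩ | _ | _ | ⟨i1, b1⟩ | _ | _ <;>
      simp at hr1 <;> simp at hq1 hc1
    all_goals
      subst_vars
      simp only [RK.Ok, CK.Ok] at o1 oc
      first
        | omega
        | (simp [pre_zero oc.2, pre_zero o1.2, pre_zero oq.2] at hc1 hq1; omega)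
        | simp [pre_zero o1.2, pre_zero oq.2] at hq1
  · simp at hlc
    rcases c <;> simp at hlc <;> simp at hc <;>
      rcases r1 <;> simp at hq1 hc1 <;> simp [hq1] at hc1

lemma case_p {i b : ℕ} (h : Quad L r1 r2 r3 (.p i b) q c y0 y y2) : False := by
  have h12 := h.l12.1; have h23 := h.l23.1; have h34 := h.l34.1
  have hlc := h.lqc.1; have hl0 := h.lc0.1; have hly := h.l0y.1
  have hy := h.y4
  rcases y with ⟨jy, ay⟩ | _ | _ | _ | _ | ⟨i', v⟩ | _ | _ | _ | _ | _ <;> simp at hy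
  · -- all of `q`, `c`, `y0`, `y` are identity columns
    simp at hly
    rcases q <;> simp at hlc
    all_goals rcases c <;> simp at hlc hl0
    all_goals rcases y0 <;> simp at hl0 hly
    all_goals (try omega)
    have hq1 := h.q1; have hc1 := h.c1; have ha1 := h.a1; have hy1 := h.y1
    have hq2 := h.q2; have hc2 := h.c2; have ha2 := h.a2; have hy2 := h.y2'
    have hq4 := h.q4; have hc4 := h.c4; have ha4 := h.a4
    rcases r1 <;> simp at hc1 <;> rcases r2 <;> simp at hc2 <;>
      simp at * <;> omega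
  · have hy2 := h.y2'; have hq2 := h.q2
    rcases r2 <;> simp at hy2
    · simp at h23 h34; omega
    · rcases q <;> simp at hq2
  · obtain ⟨rfl, hb⟩ := hy
    have hr3 : r3.rank ≤ 4 := by
      by_contra hc
      have hy3 := h.y3; have hq3 := h.q3; have hq4 := h.q4
      rcases r3 with _ | _ | _ | _ | _ | ⟨i3, b3⟩ | _ | _ <;> simp at h34 hc
      simp at hy3
      obtain ⟨rfl, rfl⟩ := hy3
      rw [← hb] at hq4
      simp [hq4] at hq3
    have hr1 : r1.rank ≤ 4 := by omega
    have hr2 : r2.rank ≤ 4 := by omega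
    have o2 := h.o2; have oy := h.oy; have hyy := h.y2'; have hq2 := h.q2
    have hy1 := h.y1; have hy3 := h.y3; have hq4 := h.q4; have hq1 := h.q1; have hq3 := h.q3
    have oq := h.oq
    rcases q with ⟨jq, aq⟩ | _ | _ | _ | _ | ⟨iq, vq⟩ | _ | _ | _ | _ | _ <;> simp at hq4
    · rcases r2 with _ | _ | ⟨j, u⟩ | _ | _ | _ | _ | _ <;> simp at hq2 <;>
        simp at hr2
      obtain ⟨rfl, hu⟩ := hq2
      simp only [RK.Ok, CK.Ok] at o2 oy
      have hne : pre L i' u ≠ pre L i' v := by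
        intro e; simp [e] at hyy; omega
      have hi0 : i' ≠ 0 := by
        rintro rfl; exact hne (by rw [pre_zero o2.2, pre_zero oy.2])
      have gx : (r1 = .gx0 ∨ r3 = .gx1) → False := by
        intro hg
        obtain ⟨g, hg0, hgz, hgg⟩ : ∃ g : RK, ent L g y0 = true ∧ ent L g y2 = true ∧
            (g = .gx0 ∨ g = .gx1) := by
          rcases hg with rfl | rfl
          · exact ⟨_, h.a1, h.z1, Or.inl rfl⟩
          · exact ⟨_, h.a3, h.z3, Or.inr rfl⟩
        have ha2 := h.a2; have hz2 := h.z2; have ha4 := h.a4; have hlz := h.lyz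
        have hl' := h.l0y
        rcases y0 with _ | _ | _ | _ | _ | ⟨i0, v0⟩ | _ | _ | _ | _ | _ <;>
          rcases hgg with rfl | rfl <;> simp at hg0 <;> (try simp at ha4) <;>
          rcases y2 with _ | _ | _ | _ | _ | ⟨i2, v2⟩ | _ | _ | _ | _ | _ <;>
          simp at hgz <;> simp [CK.Le, CK.leaf] at hlz hl' <;>
          simp at ha2 hz2
        all_goals exact hne (col_pin ha2.1 ha2.2 hz2.1 hz2.2 hl' hlz oy.1
          (by rcases hq4 with ⟨e1, e2⟩ | e
              · subst e1; exact Or.inl ⟨rfl, by omega⟩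
              · exact Or.inr e))
      rcases r1 with _ | _ | ⟨j1, u1⟩ | _ | _ | _ | _ | _ <;> simp at hr1 h12
      · simp [hi0] at hy1
      · exact gx (Or.inl rfl)
      rcases r3 with _ | _ | ⟨j3, u3⟩ | _ | _ | _ | _ | _ <;> simp at hr3 h23
      · simp at hy1 hy3
        have a := h.l12.2 rfl rfl; have b' := h.l23.2 rfl rfl
        simp [RK.leaf] at a b'
        exact hne ((pre_mid a b' (hy1.2.trans hy3.2.symm)).trans hy1.2)
      · exact gx (Or.inr rfl)
      · simp [hi0] at hy3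
    · rcases r1 <;> simp at *
    · obtain ⟨rfl, hbq⟩ := hq4
      rcases r1 with _ | _ | ⟨j1, u1⟩ | _ | _ | _ | _ | _ <;> simp at hr1 <;>
        simp at hq1 hy1 <;> (try omega)
      rcases r3 with _ | _ | ⟨j3, u3⟩ | _ | _ | _ | _ | _ <;> simp at hr3 h23 <;>
        simp at hq3 hy3 <;> (try omega)
      rcases r2 with _ | _ | ⟨j, u⟩ | _ | _ | _ | _ | _ <;> simp at h12 h23
      simp at hq2 hyy
      have a := h.l12.2 rfl rfl; have b' := h.l23.2 rfl rfl
      simp [RK.leaf] at a b'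
      exact hyy hq2.1 ((pre_mid a b' (hy1.2.trans hy3.2.symm)).trans hy1.2)

/-- Local rows with the same level and bit agree off the local columns. -/
lemma ent_loc_congr {j u u' : ℕ} (hb : bit L j u = bit L j u') {k : CK} (hk : k.rank ≠ 5) :
    ent L (.loc j u) k = ent L (.loc j u') k := by
  rcases k <;> simp at hk ⊢
  rw [hb]

/-- A local second row which agrees in level and bit with the fourth is impossible. -/
lemma loc_same {j4 u u4 : ℕ} (h : Quad L r1 (.loc j4 u) r3 (.loc j4 u4) q c y0 y y2)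
    (hb : bit L j4 u = bit L j4 u4 ∨ 0 < y0.rank ∧ j4 = L + 1) : False := by
  have hly := h.l0y.1; have hlz := h.lyz.1
  have hy4 := h.y4; have hy2 := h.y2'; have ha2 := h.a2; have ha4 := h.a4
  have hz2 := h.z2; have hz4 := h.z4; have oy := h.oy
  have key : ∀ k : CK, (k.rank = 0 → bit L j4 u = bit L j4 u4) →
      ent L (.loc j4 u) k ≠ ent L (.loc j4 u4) k → k.rank = 5 := by
    intro k hk hne
    by_contra h5
    rcases k with ⟨j', a'⟩ | _ | _ | _ | _ | _ | _ | _ | _ | _ | _ <;>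
      simp at hne h5 hk
    rw [hk] at hne
    exact hne rfl
  have hbit : ∀ k : CK, y0.rank ≤ k.rank → k.rank = 0 → bit L j4 u = bit L j4 u4 := by
    intro k hk hk0
    rcases hb with hb | hb
    · exact hb
    · omega
  have e0 := key y0 (hbit y0 le_rfl) (by rw [ha2, ha4]; simp)
  have e1 := key y (hbit y hly) (by rw [hy2, hy4]; simp)
  have e2 := key y2 (hbit y2 (hly.trans hlz)) (by rw [hz2, hz4]; simp)
  rcases y0 with _ | _ | _ | _ | _ | ⟨i0, v0⟩ | _ | _ | _ | _ | _ <;>
    simp at e0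
  rcases y with _ | _ | _ | _ | _ | ⟨i, v⟩ | _ | _ | _ | _ | _ <;>
    simp at e1
  rcases y2 with _ | _ | _ | _ | _ | ⟨i2, v2⟩ | _ | _ | _ | _ | _ <;>
    simp at e2
  simp at ha2 hy2 hy4 hz2
  have a := h.l0y.2 rfl rfl; have b := h.lyz.2 rfl rfl
  simp [CK.leaf] at a b
  simp only [CK.Ok] at oy
  refine hy2 hy4.1 (col_pin ha2.1 ha2.2 hz2.1 hz2.2 a b oy.1 ?_)
  rcases hy4.1 with e | e
  · refine Or.inl ⟨e, ?_⟩
    subst e
    rcases hb with hb | hb
    · rw [hb, bit_of_pre hy4.2]
    · omega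
  · exact Or.inr e

lemma loc_qloc {j4 u4 iq vq : ℕ}
    (h : Quad L r1 r2 r3 (.loc j4 u4) (.loc iq vq) c y0 y y2) : False := by
  have h12 := h.l12.1; have h23 := h.l23.1; have hr3 : r3.rank ≤ 2 := h.l34.1
  have hlc := h.lqc.1; have hl0 := h.lc0.1; have hly := h.l0y.1
  have hq4 := h.q4; have hq1 := h.q1; have hq2 := h.q2; have hq3 := h.q3
  have hy4 := h.y4; have hy2 := h.y2'; have ha2 := h.a2; have ha4 := h.a4
  have o4 := h.o4
  simp at hq4
  obtain ⟨hj4, hu4⟩ := hq4
  rcases r2 with _ | _ | ⟨j, u⟩ | _ | _ | _ | _ | _ <;> simp at h12 h23 <;>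
    (try omega)
  · rcases r1 <;> simp at h12
    simp [hq2] at hq1
  · rcases r1 <;> simp at h12
    · simp at hlc
      have hc1 := h.c1; have hc2 := h.c2; have hc4 := h.c4; have ha1 := h.a1
      have oc := h.oc; have o0 := h.o0
      rcases c <;> simp at hlc hc1 hc2 <;>
        rcases y0 <;> simp at hl0 ha1 ha2
      subst_vars
      simp only [RK.Ok, CK.Ok] at o4 oc o0
      simp [pre_zero o4.2, pre_zero oc.2, pre_zero o0.2] at hc4 ha4
      omega
    · simp [hq2] at hq1
  rcases r3 with _ | _ | ⟨j3, u3⟩ | _ | _ | _ | _ | _ <;> simp at h23 hr3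
  simp at hq2 hq3
  have a := h.l23.2 rfl rfl; have b := h.l34.2 rfl rfl
  simp [RK.leaf] at a b
  have hp : pre L iq u3 = pre L iq vq :=
    (pre_mid a b (hq2.2.trans hu4.symm)).trans hq2.2
  have hj3 : j3 ≠ iq ∧ j3 ≠ iq + 1 :=
    ⟨fun e => hq3 (Or.inl e) hp, fun e => hq3 (Or.inr e) hp⟩
  simp at hlc
  have ha3 := h.a3; have hy3 := h.y3
  have key : ∀ k : CK, 5 ≤ k.rank → ent L (.loc j3 u3) k = true →
      ent L (.loc j u) k ≠ ent L (.loc j4 u4) k → ∃ i v, k = .loc i v := by
    intro k hk h3 hne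
    rcases k with _ | _ | _ | _ | _ | ⟨i, v⟩ | _ | _ | _ | _ | _ <;> simp at hk
    all_goals first
      | exact ⟨_, _, rfl⟩
      | (simp at h3 hne; done)
      | (simp at h3 hne; omega)
  obtain ⟨i0, v0, rfl⟩ := key y0 (by omega) ha3 (by rw [ha2, ha4]; simp)
  obtain ⟨i, v, rfl⟩ := key y (by omega) hy3 (by rw [hy2, hy4]; simp)
  simp at ha2 ha3 hy2 hy3 hy4
  have ei : i0 = i := by omega
  subst ei
  exact hy2 ha2.1 (ha2.2.trans (ha3.2.symm.trans hy3.2))

lemma case_loc {j4 u4 : ℕ} (h : Quad L r1 r2 r3 (.loc j4 u4) q c y0 y y2) : False := by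
  have h12 := h.l12.1; have h23 := h.l23.1; have h34 := h.l34.1
  have hlc := h.lqc.1; have hl0 := h.lc0.1; have hly := h.l0y.1; have hlz := h.lyz.1
  have hq4 := h.q4; have hq1 := h.q1; have hq2 := h.q2; have hq3 := h.q3
  have hy4 := h.y4; have hy2 := h.y2'; have ha2 := h.a2; have ha4 := h.a4
  have o4 := h.o4; have oy := h.oy; have o2 := h.o2
  have hr3 : r3.rank ≤ 2 := h34
  rcases q with ⟨jq, aq⟩ | _ | _ | _ | _ | ⟨iq, vq⟩ | _ | _ | _ | _ | _ <;> simp at hq4
  · obtain ⟨rfl, hb⟩ := hq4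
    rcases r2 with _ | _ | ⟨j, u⟩ | _ | _ | _ | _ | _ <;> simp at hq2 <;>
      simp at h23 <;> (try omega)
    obtain ⟨rfl, hu⟩ := hq2
    exact loc_same h (Or.inl (hu.trans hb.symm))
  · subst hq4
    rcases r2 with _ | _ | ⟨j, u⟩ | _ | _ | _ | _ | _ <;> simp at hq2 <;>
      simp at h23 <;> (try omega)
    subst hq2
    simp at hlc
    exact loc_same h (Or.inr ⟨by omega, rfl⟩)
  · rcases r1 <;> simp at * <;> omega
  · subst hq4
    rcases r2 with _ | _ | ⟨j, u⟩ | _ | _ | _ | _ | _ <;> simp at hq2 <;>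
      simp at h23 h12 <;> (try omega)
    · rcases r1 <;> simp at *
    subst hq2
    exact loc_same h (Or.inl (by rw [bit_zero o2.2, bit_zero o4.2]))
  · rcases r3 <;> simp at * <;> rcases r2 <;> simp at *
  · exact loc_qloc h
  · rcases r3 <;> simp at * <;> rcases r2 <;> simp at *
  · subst hq4
    rcases r2 <;> simp at hq2 <;> simp at h23 <;> (try omega)
    subst hq2
    simp at hlc
    rcases y <;> simp at * <;> omega
  · rcases r3 <;> simp at * <;> rcases r2 <;> simp at *
  · subst hq4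
    simp at hlc
    rcases r2 <;> simp at hq2 h23 <;> (try omega)
    all_goals rcases y <;> simp at * <;> omega

lemma pt_qt (h : Quad L r1 r2 r3 .pt .qt c y0 y y2) : SameLeaf r1 r3 := by
  have h12 := h.l12.1; have h23 := h.l23.1; have h34 := h.l34.1
  have hlc := h.lqc.1; have hl0 := h.lc0.1; have hly := h.l0y.1
  have hq4 := h.q4; have hc4 := h.c4; have hy4 := h.y4; have ha4 := h.a4
  have hq1 := h.q1; have hq2 := h.q2; have hq3 := h.q3
  have hc1 := h.c1; have hc2 := h.c2; have hc3 := h.c3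
  have hy1 := h.y1; have hy2 := h.y2'; have hy3 := h.y3; have ha2 := h.a2; have ha3 := h.a3
  have o1 := h.o1; have o2 := h.o2; have o3 := h.o3
  rcases r2 with _ | _ | ⟨j, u⟩ | _ | _ | _ | _ | _ <;> simp at hq2
  · subst hq2
    rcases c with _ | _ | _ | _ | _ | ⟨ic, vc⟩ | _ | _ | _ | _ | _ <;> simp at hc4
    · simp [hq1] at hc1
    · subst hc4
      simp at hl0
      rcases y with _ | _ | _ | _ | _ | ⟨i, v⟩ | _ | _ | _ | _ | _ <;> simp at hy4
      · simp at hly; omega
      · subst hy4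
        simp at hly
        rcases y0 with _ | _ | _ | _ | _ | ⟨i0, v0⟩ | _ | _ | _ | _ | _ <;>
          simp at hl0 hly
        simp at ha2 ha4
        have o0 := h.o0
        simp only [CK.Ok] at o0
        omega
      · rcases r1 with _ | _ | ⟨j1, u1⟩ | _ | _ | _ | _ | _ <;> simp at hy1 hc1 <;>
          (try (simp at hq1; done))
        rcases r3 with _ | _ | ⟨j3, u3⟩ | _ | _ | _ | _ | _ <;> simp at hy3 hc3 <;>
          (try (simp at hq3; done))
        refine ⟨j1, j3, u1, rfl, ?_⟩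
        have : u1 = u3 := by
          have := hc1.2.trans hc3.2.symm
          simpa [pre] using this
        rw [this]
    · simp at hl0
      rcases y <;> simp at * <;> omega
  · exfalso
    rcases r3 <;> simp at *

lemma pt_qloc {iq vq : ℕ} (hL : 1 ≤ L) (h : Quad L r1 r2 r3 .pt (.loc iq vq) c y0 y y2) :
    False := by
  have h12 := h.l12.1; have h23 := h.l23.1; have h34 := h.l34.1
  have hlc := h.lqc.1; have hl0 := h.lc0.1; have hly := h.l0y.1
  have hq4 := h.q4; have hc4 := h.c4; have hy4 := h.y4; have ha4 := h.a4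
  have hq1 := h.q1; have hq2 := h.q2; have hq3 := h.q3
  have hc1 := h.c1; have hc2 := h.c2; have hc3 := h.c3
  have hy1 := h.y1; have hy2 := h.y2'; have hy3 := h.y3; have ha2 := h.a2; have ha3 := h.a3
  have o1 := h.o1; have o2 := h.o2; have o3 := h.o3
  simp at hq4
  subst hq4
  rcases c with _ | _ | _ | _ | _ | ⟨ic, vc⟩ | _ | _ | _ | _ | _ <;> simp at hc4 <;>
    simp at hlc hl0
  · subst hc4
    rcases r1 with _ | _ | ⟨j1, u1⟩ | _ | _ | ⟨i1, b1⟩ | _ | _ <;> simp at hq1 hc1 <;>
      (try omega)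
    · have e1 : u1 = vc := by simpa [pre] using hc1.2
      rcases r2 with _ | _ | ⟨j, u⟩ | _ | _ | ⟨i2, b2⟩ | _ | _ <;> simp at hq2 hc2 <;>
        simp at h12 <;> (try omega)
      all_goals
        rcases r3 with _ | _ | ⟨j3, u3⟩ | _ | _ | ⟨i3, b3⟩ | _ | _ <;>
          simp at h23 h34 <;> simp at hq3 hc3 <;> (try omega)
      all_goals
        rcases y0 <;> simp at * <;> omega
    · rcases r2 <;> simp at h12 h23 <;> rcases r3 <;> simp at h23 h34 <;>
        simp at hq2 hc2 hq3 hc3 hq1 hc1 <;> (try omega)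
      all_goals
        obtain ⟨e1', h1⟩ := hc1
        obtain ⟨e2', h2⟩ := hc2
        subst e1' e2'
        omega
  · rcases y <;> simp at * <;> (try omega)
    all_goals simp [hc2] at hy2

lemma case_pt (hL : 1 ≤ L) (h : Quad L r1 r2 r3 .pt q c y0 y y2) : SameLeaf r1 r3 := by
  have hq4 := h.q4; have hlc := h.lqc.1; have hc4 := h.c4
  have hl0 := h.lc0.1; have hly := h.l0y.1; have hy4 := h.y4
  have hq1 := h.q1; have hc1 := h.c1; have hy1 := h.y1; have hy2 := h.y2'
  rcases q with _ | _ | _ | _ | _ | ⟨iq, vq⟩ | _ | _ | _ | _ | _ <;> simp at hq4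
  · exact pt_qt h
  · exact (pt_qloc hL h).elim
  · exfalso
    simp at hlc
    rcases c <;> simp at * <;> simp [hq1] at hc1

/-- In a copy the first and the third row share a leaf. -/
theorem sameLeaf (hL : 1 ≤ L) (h : Quad L r1 r2 r3 r4 q c y0 y y2) : SameLeaf r1 r3 := by
  rcases r4 with _ | _ | ⟨j4, u4⟩ | _ | _ | ⟨i, b⟩ | _ | _
  · exact (case_top h (by simp)).elim
  · exact (case_top h (by simp)).elim
  · exact (case_loc h).elim
  · exact (case_gx1 h).elim
  · exact (case_gxo1 hL h).elim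
  · exact (case_p h).elim
  · exact case_pt hL h
  · have := h.q4
    rcases q <;> simp at this

end Vale.Agent.P037.Hier
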