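import Vale.Agent.P037.Hier.Classify

/-!
The matrices of the family have few copies of the pattern.
-/

namespace Vale.Agent.P037.Hier

variable {L : ℕ}

lemma quad_of_copy {f g : Fin 5 → Fin (side L * 2 ^ L)} (hf : StrictMono f) (hg : StrictMono g)
    (h : ∀ i j, mat L (f i) (g j) = pat i j) :
    Quad L (rk L (f 0)) (rk L (f 1)) (rk L (f 2)) (rk L (f 3)) (ck L (g 0)) (ck L (g 1))
      (ck L (g 2)) (ck L (g 3)) (ck L (g 4)) where
  o1 := rk_ok
  o2 := rk_ok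
  o3 := rk_ok
  o4 := rk_ok
  oq := ck_ok
  oc := ck_ok
  o0 := ck_ok
  oy := ck_ok
  oz := ck_ok
  l12 := rk_le (Fin.le_def.1 (hf.monotone (by decide)))
  l23 := rk_le (Fin.le_def.1 (hf.monotone (by decide)))
  l34 := rk_le (Fin.le_def.1 (hf.monotone (by decide)))
  lqc := ck_le (Fin.le_def.1 (hg.monotone (by decide)))
  lc0 := ck_le (Fin.le_def.1 (hg.monotone (by decide)))
  l0y := ck_le (Fin.le_def.1 (hg.monotone (by decide)))
  lyz := ck_le (Fin.le_def.1 (hg.monotone (by decide)))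
  q1 := h 0 0
  c1 := h 0 1
  a1 := h 0 2
  y1 := h 0 3
  z1 := h 0 4
  q2 := h 1 0
  c2 := h 1 1
  a2 := h 1 2
  y2' := h 1 3
  z2 := h 1 4
  q3 := h 2 0
  c3 := h 2 1
  a3 := h 2 2
  y3 := h 2 3
  z3 := h 2 4
  q4 := h 3 0
  c4 := h 3 1
  a4 := h 3 2
  y4 := h 3 3
  z4 := h 3 4

lemma loc_decomp {r j u : ℕ} (h : rk L r = .loc j u) :
    2 * 2 ^ L ≤ r ∧ (r - 2 * 2 ^ L) / (2 * L + 3) = u := by
  have h2 : (rk L r).rank = 2 := by rw [h]; rfl
  refine ⟨?_, by rw [← rk_leaf h2, h]; rfl⟩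
  rw [rk_rank, rrank] at h2
  by_contra hr
  have hs : r / 2 ^ L < 2 := seg_lt.2 (by omega)
  rw [if_pos hs] at h2
  omega

/-- Few copies. -/
theorem copyCount_mat_le (hL : 1 ≤ L) :
    copyCount pat (mat L) * 2 ^ L ≤ (side L * 2 ^ L) ^ 10 := by
  set S := 2 * L + 3 with hS
  let T := (Fin 4 → Fin (side L * 2 ^ L)) × Fin S × (Fin 5 → Fin (side L * 2 ^ L))
  have key : copyCount pat (mat L) ≤ Nat.card T := by
    refine Nat.card_le_card_of_injective
      (fun p => ((fun a => p.1.1 ((2 : Fin 5).succAbove a)),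
        (⟨((p.1.1 2 : ℕ) - 2 * 2 ^ L) % S, Nat.mod_lt _ (by omega)⟩ : Fin S), p.1.2)) ?_
    rintro ⟨⟨f, g⟩, hf, hg, h⟩ ⟨⟨f', g'⟩, hf', hg', h'⟩ e
    dsimp only at hf hg h hf' hg' h' e
    obtain ⟨e1, e23⟩ := Prod.mk.inj e
    obtain ⟨e2', e3⟩ := Prod.mk.inj e23
    have e2 : ((f 2 : ℕ) - 2 * 2 ^ L) % S = ((f' 2 : ℕ) - 2 * 2 ^ L) % S :=
      congrArg Fin.val e2'
    have hne : ∀ a : Fin 5, a ≠ 2 → f a = f' a := by
      intro a ha
      obtain ⟨b, rfl⟩ := Fin.exists_succAbove_eq ha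
      exact congrFun e1 b
    obtain ⟨j, j', u, a, b⟩ := sameLeaf hL (quad_of_copy hf hg h)
    obtain ⟨k, k', v, a', b'⟩ := sameLeaf hL (quad_of_copy hf' hg' h')
    have huv : u = v := by
      rw [hne 0 (by decide), a'] at a
      cases a
      rfl
    obtain ⟨p1, q1⟩ := loc_decomp b
    obtain ⟨p2, q2⟩ := loc_decomp b'
    have d1 := Nat.div_add_mod ((f 2 : ℕ) - 2 * 2 ^ L) S
    have d2 := Nat.div_add_mod ((f' 2 : ℕ) - 2 * 2 ^ L) S
    rw [← hS] at q1 q2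
    rw [q1, e2, huv] at d1
    rw [q2] at d2
    have hf2 : f 2 = f' 2 := by
      apply Fin.ext
      omega
    have hff : f = f' := by
      funext a
      rcases eq_or_ne a 2 with rfl | ha
      · exact hf2
      · exact hne a ha
    subst hff; subst e3; rfl
  have hT : Nat.card T = (side L * 2 ^ L) ^ 4 * (S * (side L * 2 ^ L) ^ 5) := by
    simp [T, Nat.card_eq_fintype_card]
  calc copyCount pat (mat L) * 2 ^ L
      ≤ (side L * 2 ^ L) ^ 4 * (S * (side L * 2 ^ L) ^ 5) * 2 ^ L :=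
        Nat.mul_le_mul_right _ (key.trans_eq hT)
    _ ≤ (side L * 2 ^ L) ^ 4 * (side L * (side L * 2 ^ L) ^ 5) * 2 ^ L := by
        gcongr
        simp only [side, hS]; omega
    _ = (side L * 2 ^ L) ^ 10 := by ring

end Vale.Agent.P037.Hier
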