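import Vale.Agent.P037.Defs

/-!
A hierarchical family of matrices for a fixed `5 × 5` pattern.

Rows and columns come in segments of length `2 ^ L`, except for the local zone, which consists of
`2 ^ L` leaves, each an onion of nested levels.
-/

namespace Vale.Agent.P037.Hier

/-- The pattern. -/
def pat : Fin 5 → Fin 5 → Bool :=
  ![![false, true, true, true, true],
    ![true, true, true, false, true],
    ![false, true, true, true, true],
    ![true, true, false, true, false],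
    ![false, false, false, false, false]]

/-- The ancestor at level `i` of a leaf. -/
def pre (L i u : ℕ) : ℕ := u / 2 ^ (L - i)

/-- The bit at level `i` of a leaf. -/
def bit (L i u : ℕ) : ℕ := u / 2 ^ (L - i) % 2

/-- Kinds of rows, from top to bottom. -/
inductive RK
  | gxo0 | gx0 | loc (j u : ℕ) | gx1 | gxo1 | p (i b : ℕ) | pt | z

/-- Kinds of columns, from left to right. -/
inductive CK
  | q (j a : ℕ) | qt | gc | gyo0 | gy0 | loc (i v : ℕ) | gy1 | g1 | gy2 | gyo1 | z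

/-- The entries. -/
def ent (L : ℕ) : RK → CK → Bool
  | .gxo0, .gc | .gxo0, .gyo0 | .gxo0, .gyo1 => true
  | .gxo0, .loc i _ => decide (i = 0)
  | .gxo1, .gc | .gxo1, .gyo0 | .gxo1, .gyo1 => true
  | .gxo1, .loc i _ => decide (i = 0)
  | .gx0, .gc | .gx0, .loc _ _ => true
  | .gx1, .gc | .gx1, .loc _ _ => true
  | .loc _ _, .gc | .loc _ _, .gy0 | .loc _ _, .gy1 | .loc _ _, .gy2 => true
  | .loc j _, .gyo0 | .loc j _, .gyo1 => decide (j = 0)
  | .loc j _, .g1 => decide (j = L)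
  | .loc j _, .qt => decide (j = L + 1)
  | .loc j u, .q j' a => decide (j' = j ∧ bit L j u = a)
  | .loc j u, .loc i v => decide ((j = i ∨ j = i + 1) ∧ pre L i u = pre L i v)
  | .p _ _, .gc => true
  | .p i b, .loc i' v => decide (i' = i ∧ bit L i v = b)
  | .p i b, .q j a => decide (j = i ∧ a = b ∨ j = i + 1)
  | .pt, .g1 | .pt, .qt => true
  | .pt, .loc i _ => decide (i = L)
  | _, _ => false

/-- The position of a row kind. -/
def RK.rank : RK → ℕ
  | .gxo0 => 0 | .gx0 => 1 | .loc _ _ => 2 | .gx1 => 3 | .gxo1 => 4 | .p _ _ => 5 | .pt => 6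
  | .z => 7

/-- The position of a column kind. -/
def CK.rank : CK → ℕ
  | .q _ _ => 0 | .qt => 1 | .gc => 2 | .gyo0 => 3 | .gy0 => 4 | .loc _ _ => 5 | .gy1 => 6
  | .g1 => 7 | .gy2 => 8 | .gyo1 => 9 | .z => 10

/-- The leaf of a local row, `0` otherwise. -/
def RK.leaf : RK → ℕ
  | .loc _ u => u
  | _ => 0

/-- The leaf of a local column, `0` otherwise. -/
def CK.leaf : CK → ℕ
  | .loc _ v => v
  | _ => 0

/-- Which kinds occur. -/
def RK.Ok (L : ℕ) : RK → Prop
  | .loc j u => j ≤ L + 1 ∧ u < 2 ^ L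
  | .p i b => i ≤ L ∧ b < 2
  | _ => True

/-- Which kinds occur. -/
def CK.Ok (L : ℕ) : CK → Prop
  | .loc i v => i ≤ L ∧ v < 2 ^ L
  | .q j a => j ≤ L + 1 ∧ a < 2
  | _ => True

/-- `a` may stand above `b`. -/
def RK.Le (a b : RK) : Prop :=
  a.rank ≤ b.rank ∧ (a.rank = 2 → b.rank = 2 → a.leaf ≤ b.leaf)

/-- `a` may stand left of `b`. -/
def CK.Le (a b : CK) : Prop :=
  a.rank ≤ b.rank ∧ (a.rank = 5 → b.rank = 5 → a.leaf ≤ b.leaf)

/-- The side length in segments. -/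
def side (L : ℕ) : ℕ := 4 * L + 16

/-- The kind of a row. -/
def rk (L r : ℕ) : RK :=
  if r / 2 ^ L = 0 then .gxo0
  else if r / 2 ^ L = 1 then .gx0
  else if r / 2 ^ L < 2 * L + 5 then
    .loc (min ((r - 2 * 2 ^ L) % (2 * L + 3)) (2 * L + 2 - (r - 2 * 2 ^ L) % (2 * L + 3)))
      ((r - 2 * 2 ^ L) / (2 * L + 3))
  else if r / 2 ^ L = 2 * L + 5 then .gx1
  else if r / 2 ^ L = 2 * L + 6 then .gxo1
  else if r / 2 ^ L < 4 * L + 9 then
    .p ((r / 2 ^ L - (2 * L + 7)) / 2) ((r / 2 ^ L - (2 * L + 7)) % 2)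
  else if r / 2 ^ L = 4 * L + 9 then .pt
  else .z

/-- The kind of a column. -/
def ck (L c : ℕ) : CK :=
  if c / 2 ^ L < 2 * L + 4 then .q (c / 2 ^ L / 2) (c / 2 ^ L % 2)
  else if c / 2 ^ L = 2 * L + 4 then .qt
  else if c / 2 ^ L = 2 * L + 5 then .gc
  else if c / 2 ^ L = 2 * L + 6 then .gyo0
  else if c / 2 ^ L = 2 * L + 7 then .gy0
  else if c / 2 ^ L < 4 * L + 10 then
    .loc (min ((c - (2 * L + 8) * 2 ^ L) % (2 * L + 2))
        (2 * L + 1 - (c - (2 * L + 8) * 2 ^ L) % (2 * L + 2)))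
      ((c - (2 * L + 8) * 2 ^ L) / (2 * L + 2))
  else if c / 2 ^ L = 4 * L + 10 then .gy1
  else if c / 2 ^ L = 4 * L + 11 then .g1
  else if c / 2 ^ L = 4 * L + 12 then .gy2
  else if c / 2 ^ L = 4 * L + 13 then .gyo1
  else .z

/-- The matrix at level `L`. -/
def mat (L : ℕ) (r c : Fin (side L * 2 ^ L)) : Bool := ent L (rk L r) (ck L c)

end Vale.Agent.P037.Hier
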