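import Vale.Agent.P037.Hier.Layout

/-!
The table of entries, one equation for each pair of kinds.
-/

namespace Vale.Agent.P037.Hier

variable {L : ℕ}

@[simp] lemma ent_gxo0_q (j' a : ℕ) :
    ent L .gxo0 (.q j' a) = false := rfl
@[simp] lemma ent_gxo0_qt :
    ent L .gxo0 .qt = false := rfl
@[simp] lemma ent_gxo0_gc :
    ent L .gxo0 .gc = true := rfl
@[simp] lemma ent_gxo0_gyo0 :
    ent L .gxo0 .gyo0 = true := rfl
@[simp] lemma ent_gxo0_gy0 :
    ent L .gxo0 .gy0 = false := rfl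
@[simp] lemma ent_gxo0_loc (i' v : ℕ) :
    ent L .gxo0 (.loc i' v) = decide (i' = 0) := rfl
@[simp] lemma ent_gxo0_gy1 :
    ent L .gxo0 .gy1 = false := rfl
@[simp] lemma ent_gxo0_g1 :
    ent L .gxo0 .g1 = false := rfl
@[simp] lemma ent_gxo0_gy2 :
    ent L .gxo0 .gy2 = false := rfl
@[simp] lemma ent_gxo0_gyo1 :
    ent L .gxo0 .gyo1 = true := rfl
@[simp] lemma ent_gxo0_z :
    ent L .gxo0 .z = false := rfl
@[simp] lemma ent_gx0_q (j' a : ℕ) :
    ent L .gx0 (.q j' a) = false := rfl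
@[simp] lemma ent_gx0_qt :
    ent L .gx0 .qt = false := rfl
@[simp] lemma ent_gx0_gc :
    ent L .gx0 .gc = true := rfl
@[simp] lemma ent_gx0_gyo0 :
    ent L .gx0 .gyo0 = false := rfl
@[simp] lemma ent_gx0_gy0 :
    ent L .gx0 .gy0 = false := rfl
@[simp] lemma ent_gx0_loc (i' v : ℕ) :
    ent L .gx0 (.loc i' v) = true := rfl
@[simp] lemma ent_gx0_gy1 :
    ent L .gx0 .gy1 = false := rfl
@[simp] lemma ent_gx0_g1 :
    ent L .gx0 .g1 = false := rfl
@[simp] lemma ent_gx0_gy2 :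
    ent L .gx0 .gy2 = false := rfl
@[simp] lemma ent_gx0_gyo1 :
    ent L .gx0 .gyo1 = false := rfl
@[simp] lemma ent_gx0_z :
    ent L .gx0 .z = false := rfl
@[simp] lemma ent_loc_q (j u j' a : ℕ) :
    ent L (.loc j u) (.q j' a) = decide (j' = j ∧ bit L j u = a) := rfl
@[simp] lemma ent_loc_qt (j u : ℕ) :
    ent L (.loc j u) .qt = decide (j = L + 1) := rfl
@[simp] lemma ent_loc_gc (j u : ℕ) :
    ent L (.loc j u) .gc = true := rfl
@[simp] lemma ent_loc_gyo0 (j u : ℕ) :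
    ent L (.loc j u) .gyo0 = decide (j = 0) := rfl
@[simp] lemma ent_loc_gy0 (j u : ℕ) :
    ent L (.loc j u) .gy0 = true := rfl
@[simp] lemma ent_loc_loc (j u i' v : ℕ) :
    ent L (.loc j u) (.loc i' v) = decide ((j = i' ∨ j = i' + 1) ∧ pre L i' u = pre L i' v) := rfl
@[simp] lemma ent_loc_gy1 (j u : ℕ) :
    ent L (.loc j u) .gy1 = true := rfl
@[simp] lemma ent_loc_g1 (j u : ℕ) :
    ent L (.loc j u) .g1 = decide (j = L) := rfl
@[simp] lemma ent_loc_gy2 (j u : ℕ) :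
    ent L (.loc j u) .gy2 = true := rfl
@[simp] lemma ent_loc_gyo1 (j u : ℕ) :
    ent L (.loc j u) .gyo1 = decide (j = 0) := rfl
@[simp] lemma ent_loc_z (j u : ℕ) :
    ent L (.loc j u) .z = false := rfl
@[simp] lemma ent_gx1_q (j' a : ℕ) :
    ent L .gx1 (.q j' a) = false := rfl
@[simp] lemma ent_gx1_qt :
    ent L .gx1 .qt = false := rfl
@[simp] lemma ent_gx1_gc :
    ent L .gx1 .gc = true := rfl
@[simp] lemma ent_gx1_gyo0 :
    ent L .gx1 .gyo0 = false := rfl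
@[simp] lemma ent_gx1_gy0 :
    ent L .gx1 .gy0 = false := rfl
@[simp] lemma ent_gx1_loc (i' v : ℕ) :
    ent L .gx1 (.loc i' v) = true := rfl
@[simp] lemma ent_gx1_gy1 :
    ent L .gx1 .gy1 = false := rfl
@[simp] lemma ent_gx1_g1 :
    ent L .gx1 .g1 = false := rfl
@[simp] lemma ent_gx1_gy2 :
    ent L .gx1 .gy2 = false := rfl
@[simp] lemma ent_gx1_gyo1 :
    ent L .gx1 .gyo1 = false := rfl
@[simp] lemma ent_gx1_z :
    ent L .gx1 .z = false := rfl
@[simp] lemma ent_gxo1_q (j' a : ℕ) :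
    ent L .gxo1 (.q j' a) = false := rfl
@[simp] lemma ent_gxo1_qt :
    ent L .gxo1 .qt = false := rfl
@[simp] lemma ent_gxo1_gc :
    ent L .gxo1 .gc = true := rfl
@[simp] lemma ent_gxo1_gyo0 :
    ent L .gxo1 .gyo0 = true := rfl
@[simp] lemma ent_gxo1_gy0 :
    ent L .gxo1 .gy0 = false := rfl
@[simp] lemma ent_gxo1_loc (i' v : ℕ) :
    ent L .gxo1 (.loc i' v) = decide (i' = 0) := rfl
@[simp] lemma ent_gxo1_gy1 :
    ent L .gxo1 .gy1 = false := rfl
@[simp] lemma ent_gxo1_g1 :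
    ent L .gxo1 .g1 = false := rfl
@[simp] lemma ent_gxo1_gy2 :
    ent L .gxo1 .gy2 = false := rfl
@[simp] lemma ent_gxo1_gyo1 :
    ent L .gxo1 .gyo1 = true := rfl
@[simp] lemma ent_gxo1_z :
    ent L .gxo1 .z = false := rfl
@[simp] lemma ent_p_q (i b j' a : ℕ) :
    ent L (.p i b) (.q j' a) = decide (j' = i ∧ a = b ∨ j' = i + 1) := rfl
@[simp] lemma ent_p_qt (i b : ℕ) :
    ent L (.p i b) .qt = false := rfl
@[simp] lemma ent_p_gc (i b : ℕ) :
    ent L (.p i b) .gc = true := rfl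
@[simp] lemma ent_p_gyo0 (i b : ℕ) :
    ent L (.p i b) .gyo0 = false := rfl
@[simp] lemma ent_p_gy0 (i b : ℕ) :
    ent L (.p i b) .gy0 = false := rfl
@[simp] lemma ent_p_loc (i b i' v : ℕ) :
    ent L (.p i b) (.loc i' v) = decide (i' = i ∧ bit L i v = b) := rfl
@[simp] lemma ent_p_gy1 (i b : ℕ) :
    ent L (.p i b) .gy1 = false := rfl
@[simp] lemma ent_p_g1 (i b : ℕ) :
    ent L (.p i b) .g1 = false := rfl
@[simp] lemma ent_p_gy2 (i b : ℕ) :
    ent L (.p i b) .gy2 = false := rfl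
@[simp] lemma ent_p_gyo1 (i b : ℕ) :
    ent L (.p i b) .gyo1 = false := rfl
@[simp] lemma ent_p_z (i b : ℕ) :
    ent L (.p i b) .z = false := rfl
@[simp] lemma ent_pt_q (j' a : ℕ) :
    ent L .pt (.q j' a) = false := rfl
@[simp] lemma ent_pt_qt :
    ent L .pt .qt = true := rfl
@[simp] lemma ent_pt_gc :
    ent L .pt .gc = false := rfl
@[simp] lemma ent_pt_gyo0 :
    ent L .pt .gyo0 = false := rfl
@[simp] lemma ent_pt_gy0 :
    ent L .pt .gy0 = false := rfl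
@[simp] lemma ent_pt_loc (i' v : ℕ) :
    ent L .pt (.loc i' v) = decide (i' = L) := rfl
@[simp] lemma ent_pt_gy1 :
    ent L .pt .gy1 = false := rfl
@[simp] lemma ent_pt_g1 :
    ent L .pt .g1 = true := rfl
@[simp] lemma ent_pt_gy2 :
    ent L .pt .gy2 = false := rfl
@[simp] lemma ent_pt_gyo1 :
    ent L .pt .gyo1 = false := rfl
@[simp] lemma ent_pt_z :
    ent L .pt .z = false := rfl
@[simp] lemma ent_z_q (j' a : ℕ) :
    ent L .z (.q j' a) = false := rfl
@[simp] lemma ent_z_qt :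
    ent L .z .qt = false := rfl
@[simp] lemma ent_z_gc :
    ent L .z .gc = false := rfl
@[simp] lemma ent_z_gyo0 :
    ent L .z .gyo0 = false := rfl
@[simp] lemma ent_z_gy0 :
    ent L .z .gy0 = false := rfl
@[simp] lemma ent_z_loc (i' v : ℕ) :
    ent L .z (.loc i' v) = false := rfl
@[simp] lemma ent_z_gy1 :
    ent L .z .gy1 = false := rfl
@[simp] lemma ent_z_g1 :
    ent L .z .g1 = false := rfl
@[simp] lemma ent_z_gy2 :
    ent L .z .gy2 = false := rfl
@[simp] lemma ent_z_gyo1 :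
    ent L .z .gyo1 = false := rfl
@[simp] lemma ent_z_z :
    ent L .z .z = false := rfl

end Vale.Agent.P037.Hier
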