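import Vale.Agent.P037.Hier.Layout
import Vale.Agent.P037.Hier.Table

/-!
Every matrix without a copy of the pattern is far from the matrices of the family: a good triple
of indices lets the ones in a leaf be forced level by level, until a copy appears.
-/

namespace Vale.Agent.P037.Hier

variable {L : ℕ}

/-- Strict monotonicity of a list of five numbers. -/
lemma strictMono_five {a b c d e : ℕ} (h1 : a < b) (h2 : b < c) (h3 : c < d) (h4 : d < e) :
    StrictMono ![a, b, c, d, e] := by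
  rw [Fin.strictMono_iff_lt_succ]
  intro i
  fin_cases i <;> simpa

/-- A matrix on all pairs of naturals, extended by `false`. -/
def ext' {n : ℕ} (B : Fin n → Fin n → Bool) (r c : ℕ) : Bool :=
  if h : r < n ∧ c < n then B ⟨r, h.1⟩ ⟨c, h.2⟩ else false

lemma no_copy {n : ℕ} {B : Fin n → Fin n → Bool} (hB : copyCount pat B = 0) {r c : Fin 5 → ℕ}
    (hr : StrictMono r) (hc : StrictMono c) (hrn : r 4 < n) (hcn : c 4 < n)
    (h : ∀ i j, ext' B (r i) (c j) = pat i j) : False := by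
  have hr' : ∀ i, r i < n := fun i => lt_of_le_of_lt (hr.monotone (Fin.le_last i)) hrn
  have hc' : ∀ i, c i < n := fun i => lt_of_le_of_lt (hc.monotone (Fin.le_last i)) hcn
  let x : {p : (Fin 5 → Fin n) × (Fin 5 → Fin n) //
      StrictMono p.1 ∧ StrictMono p.2 ∧ ∀ i j, B (p.1 i) (p.2 j) = pat i j} :=
    ⟨(fun i => ⟨r i, hr' i⟩, fun j => ⟨c j, hc' j⟩), fun a b hab => hr hab,
      fun a b hab => hc hab, fun i j => by
        have := h i j
        rw [ext', dif_pos ⟨hr' i, hc' j⟩] at this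
        exact this⟩
  rw [copyCount, Nat.card_eq_zero] at hB
  rcases hB with hB | hB
  · exact hB.false x
  · exact (not_finite_iff_infinite.2 hB) inferInstance

/-- The slot of a local row. -/
def rsl (L u t : ℕ) : ℕ := 2 * 2 ^ L + u * (2 * L + 3) + t

/-- The slot of a local column. -/
def csl (L u t : ℕ) : ℕ := (2 * L + 8) * 2 ^ L + u * (2 * L + 2) + t

/-- The level of a row slot. -/
def rlev (L t : ℕ) : ℕ := min t (2 * L + 2 - t)

/-- The level of a column slot. -/
def clev (L t : ℕ) : ℕ := min t (2 * L + 1 - t)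

lemma mul_slot_le {w u t N : ℕ} (hu : u < N) (ht : t < w) : u * w + t < N * w :=
  calc u * w + t < (u + 1) * w := by linarith
    _ ≤ N * w := Nat.mul_le_mul_right _ hu

lemma rsl_lt {u t : ℕ} (hu : u < 2 ^ L) (ht : t < 2 * L + 3) :
    rsl L u t < (2 * L + 5) * 2 ^ L := by
  have := mul_slot_le hu ht
  rw [rsl]
  linarith

lemma csl_lt {u t : ℕ} (hu : u < 2 ^ L) (ht : t < 2 * L + 2) :
    csl L u t < (4 * L + 10) * 2 ^ L := by
  have := mul_slot_le hu ht
  rw [csl]
  linarith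

lemma rk_rsl {u t : ℕ} (hu : u < 2 ^ L) (ht : t < 2 * L + 3) :
    rk L (rsl L u t) = .loc (rlev L t) u := by
  have h1 : rsl L u t / 2 ^ L < 2 * L + 5 := seg_lt.2 (rsl_lt hu ht)
  have h2 : ¬ rsl L u t / 2 ^ L < 2 := by
    rw [seg_lt, rsl]; omega
  have h3 : rsl L u t - 2 * 2 ^ L = u * (2 * L + 3) + t := by rw [rsl]; omega
  rw [rk, if_neg (by omega), if_neg (by omega), if_pos h1, h3, rlev]
  congr 1
  · rw [Nat.add_comm, Nat.add_mul_mod_self_right, Nat.mod_eq_of_lt ht]
  · rw [Nat.add_comm, Nat.add_mul_div_right _ _ (by omega), Nat.div_eq_of_lt ht, Nat.zero_add]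

lemma ck_csl {u t : ℕ} (hu : u < 2 ^ L) (ht : t < 2 * L + 2) :
    ck L (csl L u t) = .loc (clev L t) u := by
  have h1 : csl L u t / 2 ^ L < 4 * L + 10 := seg_lt.2 (csl_lt hu ht)
  have h2 : ¬ csl L u t / 2 ^ L < 2 * L + 8 := by
    rw [seg_lt, csl]; omega
  have h3 : csl L u t - (2 * L + 8) * 2 ^ L = u * (2 * L + 2) + t := by rw [csl]; omega
  rw [ck, if_neg (by omega), if_neg (by omega), if_neg (by omega), if_neg (by omega),
    if_neg (by omega), if_pos h1, h3, clev]
  congr 1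
  · rw [Nat.add_comm, Nat.add_mul_mod_self_right, Nat.mod_eq_of_lt ht]
  · rw [Nat.add_comm, Nat.add_mul_div_right _ _ (by omega), Nat.div_eq_of_lt ht, Nat.zero_add]

/-- A row of the triple `(u, p, q)`, with its kind. -/
def RowAt (L u p r : ℕ) (K : RK) : Prop :=
  ((∃ s < side L, r = s * 2 ^ L + p) ∨ ∃ t < 2 * L + 3, r = rsl L u t) ∧ rk L r = K

/-- A column of the triple `(u, p, q)`, with its kind. -/
def ColAt (L u q c : ℕ) (K : CK) : Prop :=
  ((∃ s < side L, c = s * 2 ^ L + q) ∨ ∃ t < 2 * L + 2, c = csl L u t) ∧ ck L c = K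

/-- On a triple, `B` agrees with the matrix outside the pairs of local lines. -/
structure Good (L u p q : ℕ) (B : ℕ → ℕ → Bool) : Prop where
  hu : u < 2 ^ L
  hp : p < 2 ^ L
  hq : q < 2 ^ L
  g : ∀ r c K K', RowAt L u p r K → ColAt L u q c K' → (K.rank ≠ 2 ∨ K'.rank ≠ 5) →
    B r c = ent L K K'

lemma RowAt.lt {u p r : ℕ} {K : RK} (h : RowAt L u p r K) (hu : u < 2 ^ L) (hp : p < 2 ^ L) :
    r < side L * 2 ^ L := by
  obtain ⟨⟨s, hs, rfl⟩ | ⟨t, ht, rfl⟩, -⟩ := h
  · rw [Nat.mul_comm (side L)]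
    calc s * 2 ^ L + p < (s + 1) * 2 ^ L := by linarith
      _ ≤ 2 ^ L * side L := by rw [Nat.mul_comm _ (side L)]; exact Nat.mul_le_mul_right _ hs
  · exact lt_of_lt_of_le (rsl_lt hu ht) (Nat.mul_le_mul_right _ (by simp only [side]; omega))

lemma ColAt.lt {u q c : ℕ} {K : CK} (h : ColAt L u q c K) (hu : u < 2 ^ L) (hq : q < 2 ^ L) :
    c < side L * 2 ^ L := by
  obtain ⟨⟨s, hs, rfl⟩ | ⟨t, ht, rfl⟩, -⟩ := h
  · calc s * 2 ^ L + q < (s + 1) * 2 ^ L := by linarith
      _ ≤ side L * 2 ^ L := Nat.mul_le_mul_right _ hs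
  · exact lt_of_lt_of_le (csl_lt hu ht) (Nat.mul_le_mul_right _ (by simp only [side]; omega))

lemma seg_lt_seg {N s s' p p' : ℕ} (hp : p < N) (h : s < s') : s * N + p < s' * N + p' :=
  calc s * N + p < (s + 1) * N := by linarith
    _ ≤ s' * N := Nat.mul_le_mul_right _ h
    _ ≤ s' * N + p' := Nat.le_add_right _ _

/-- Forcing: if all entries but one agree with the pattern, the remaining one is a one. -/
lemma forced {u p q : ℕ} {B : Fin (side L * 2 ^ L) → Fin (side L * 2 ^ L) → Bool}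
    (hB : copyCount pat B = 0) (G : Good L u p q (ext' B)) (r : Fin 5 → ℕ) (K : Fin 5 → RK)
    (c : Fin 5 → ℕ) (K' : Fin 5 → CK) (hr : StrictMono r) (hc : StrictMono c)
    (a : ∀ i, RowAt L u p (r i) (K i)) (b : ∀ j, ColAt L u q (c j) (K' j))
    (he : ∀ i j, ¬(i = 1 ∧ j = 3) → ent L (K i) (K' j) = pat i j)
    (hl : ∀ i j, ¬(i = 1 ∧ j = 3) → (K i).rank = 2 → (K' j).rank = 5 →
      ext' B (r i) (c j) = pat i j) :
    ext' B (r 1) (c 3) = true := by
  by_contra hne
  refine no_copy hB hr hc ((a 4).lt G.hu G.hp) ((b 4).lt G.hu G.hq) fun i j => ?_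
  by_cases hij : i = 1 ∧ j = 3
  · obtain ⟨rfl, rfl⟩ := hij
    simpa [pat] using hne
  · by_cases h2 : (K i).rank = 2 ∧ (K' j).rank = 5
    · exact hl i j hij h2.1 h2.2
    · rw [G.g _ _ _ _ (a i) (b j) (by tauto)]
      exact he i j hij

section kinds

variable {u p q : ℕ}

lemma seg_div {s : ℕ} (hp : p < 2 ^ L) : (s * 2 ^ L + p) / 2 ^ L = s := by
  rw [Nat.add_comm, Nat.add_mul_div_right _ _ (Nat.two_pow_pos L), Nat.div_eq_of_lt hp,
    Nat.zero_add]

lemma row_seg {s : ℕ} (hs : s < side L) {K : RK} (hk : rk L (s * 2 ^ L + p) = K) :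
    RowAt L u p (s * 2 ^ L + p) K := ⟨.inl ⟨s, hs, rfl⟩, hk⟩

lemma col_seg {s : ℕ} (hs : s < side L) {K : CK} (hk : ck L (s * 2 ^ L + q) = K) :
    ColAt L u q (s * 2 ^ L + q) K := ⟨.inl ⟨s, hs, rfl⟩, hk⟩

lemma row_slot (hu : u < 2 ^ L) {t j : ℕ} (ht : t < 2 * L + 3) (hj : rlev L t = j) :
    RowAt L u p (rsl L u t) (.loc j u) := ⟨.inr ⟨t, ht, rfl⟩, by rw [rk_rsl hu ht, hj]⟩

lemma col_slot (hu : u < 2 ^ L) {t j : ℕ} (ht : t < 2 * L + 2) (hj : clev L t = j) :
    ColAt L u q (csl L u t) (.loc j u) := ⟨.inr ⟨t, ht, rfl⟩, by rw [ck_csl hu ht, hj]⟩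

lemma rk_p {j a : ℕ} (hp : p < 2 ^ L) (hj : j ≤ L) (ha : a < 2) :
    rk L ((2 * L + 7 + 2 * j + a) * 2 ^ L + p) = .p j a := by
  rw [rk, seg_div hp, if_neg (by omega), if_neg (by omega), if_neg (by omega), if_neg (by omega),
    if_neg (by omega), if_pos (by omega)]
  congr 1 <;> omega

lemma ck_q {j a : ℕ} (hq : q < 2 ^ L) (hj : j ≤ L + 1) (ha : a < 2) :
    ck L ((2 * j + a) * 2 ^ L + q) = .q j a := by
  rw [ck, seg_div hq, if_pos (by omega)]
  congr 1 <;> omega

lemma rk_gxo0 (hp : p < 2 ^ L) : rk L (0 * 2 ^ L + p) = .gxo0 := by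
  rw [rk, seg_div hp]; simp

lemma rk_gx0 (hp : p < 2 ^ L) : rk L (1 * 2 ^ L + p) = .gx0 := by
  rw [rk, seg_div hp]; simp

lemma rk_gx1 (hp : p < 2 ^ L) : rk L ((2 * L + 5) * 2 ^ L + p) = .gx1 := by
  rw [rk, seg_div hp]; simp

lemma rk_gxo1 (hp : p < 2 ^ L) : rk L ((2 * L + 6) * 2 ^ L + p) = .gxo1 := by
  rw [rk, seg_div hp]; simp

lemma rk_pt (hp : p < 2 ^ L) : rk L ((4 * L + 9) * 2 ^ L + p) = .pt := by
  rw [rk, seg_div hp, if_neg (by omega), if_neg (by omega), if_neg (by omega), if_neg (by omega),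
    if_neg (by omega), if_neg (by omega), if_pos rfl]

lemma rk_z (hp : p < 2 ^ L) : rk L ((4 * L + 10) * 2 ^ L + p) = .z := by
  rw [rk, seg_div hp, if_neg (by omega), if_neg (by omega), if_neg (by omega), if_neg (by omega),
    if_neg (by omega), if_neg (by omega), if_neg (by omega)]

lemma ck_qt (hq : q < 2 ^ L) : ck L ((2 * L + 4) * 2 ^ L + q) = .qt := by
  rw [ck, seg_div hq]; simp

lemma ck_gc (hq : q < 2 ^ L) : ck L ((2 * L + 5) * 2 ^ L + q) = .gc := by
  rw [ck, seg_div hq]; simp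

lemma ck_gyo0 (hq : q < 2 ^ L) : ck L ((2 * L + 6) * 2 ^ L + q) = .gyo0 := by
  rw [ck, seg_div hq]; simp

lemma ck_gy0 (hq : q < 2 ^ L) : ck L ((2 * L + 7) * 2 ^ L + q) = .gy0 := by
  rw [ck, seg_div hq]; simp

lemma ck_gy1 (hq : q < 2 ^ L) : ck L ((4 * L + 10) * 2 ^ L + q) = .gy1 := by
  rw [ck, seg_div hq, if_neg (by omega), if_neg (by omega), if_neg (by omega), if_neg (by omega),
    if_neg (by omega), if_neg (by omega), if_pos rfl]

lemma ck_g1 (hq : q < 2 ^ L) : ck L ((4 * L + 11) * 2 ^ L + q) = .g1 := by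
  rw [ck, seg_div hq, if_neg (by omega), if_neg (by omega), if_neg (by omega), if_neg (by omega),
    if_neg (by omega), if_neg (by omega), if_neg (by omega), if_pos rfl]

lemma ck_gy2 (hq : q < 2 ^ L) : ck L ((4 * L + 12) * 2 ^ L + q) = .gy2 := by
  rw [ck, seg_div hq, if_neg (by omega), if_neg (by omega), if_neg (by omega), if_neg (by omega),
    if_neg (by omega), if_neg (by omega), if_neg (by omega), if_neg (by omega), if_pos rfl]

lemma ck_gyo1 (hq : q < 2 ^ L) : ck L ((4 * L + 13) * 2 ^ L + q) = .gyo1 := by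
  rw [ck, seg_div hq, if_neg (by omega), if_neg (by omega), if_neg (by omega), if_neg (by omega),
    if_neg (by omega), if_neg (by omega), if_neg (by omega), if_neg (by omega), if_neg (by omega),
    if_pos rfl]

lemma seg_lt_rsl {s t : ℕ} (hp : p < 2 ^ L) (hs : s < 2) : s * 2 ^ L + p < rsl L u t :=
  calc s * 2 ^ L + p < 2 * 2 ^ L + 0 := seg_lt_seg hp hs
    _ ≤ rsl L u t := by simp only [rsl]; omega

lemma rsl_lt_seg {s t : ℕ} (hu : u < 2 ^ L) (ht : t < 2 * L + 3) (hs : 2 * L + 5 ≤ s) :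
    rsl L u t < s * 2 ^ L + p :=
  lt_of_lt_of_le (rsl_lt hu ht) (le_add_right (Nat.mul_le_mul_right _ hs))

lemma seg_lt_csl {s t : ℕ} (hq : q < 2 ^ L) (hs : s < 2 * L + 8) :
    s * 2 ^ L + q < csl L u t :=
  calc s * 2 ^ L + q < (2 * L + 8) * 2 ^ L + 0 := seg_lt_seg hq hs
    _ ≤ csl L u t := by simp only [csl]; omega

lemma csl_lt_seg {s t : ℕ} (hu : u < 2 ^ L) (ht : t < 2 * L + 2) (hs : 4 * L + 10 ≤ s) :
    csl L u t < s * 2 ^ L + q :=
  lt_of_lt_of_le (csl_lt hu ht) (le_add_right (Nat.mul_le_mul_right _ hs))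

lemma rsl_lt_rsl {t t' : ℕ} (h : t < t') : rsl L u t < rsl L u t' := by
  simp only [rsl]; omega

lemma csl_lt_csl {t t' : ℕ} (h : t < t') : csl L u t < csl L u t' := by
  simp only [csl]; omega

end kinds

/-- The ones of the row level `j` against the column level `i` in the leaf. -/
def Forced (L u : ℕ) (B : ℕ → ℕ → Bool) (j i : ℕ) : Prop :=
  ∀ t t', t < 2 * L + 3 → t' < 2 * L + 2 → rlev L t = j → clev L t' = i →
    B (rsl L u t) (csl L u t') = true

section steps

variable {u p q : ℕ} {B : Fin (side L * 2 ^ L) → Fin (side L * 2 ^ L) → Bool}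

lemma forced_base (hB : copyCount pat B = 0) (G : Good L u p q (ext' B)) :
    Forced L u (ext' B) 0 0 := by
  intro t t' ht ht' hl hl'
  have hu := G.hu; have hp := G.hp; have hq := G.hq
  exact forced hB G
    ![0 * 2 ^ L + p, rsl L u t, (2 * L + 6) * 2 ^ L + p, (2 * L + 7 + 2 * 0 + 0) * 2 ^ L + p,
      (4 * L + 10) * 2 ^ L + p]
    ![.gxo0, .loc 0 u, .gxo1, .p 0 0, .z]
    ![(2 * 0 + 0) * 2 ^ L + q, (2 * L + 5) * 2 ^ L + q, (2 * L + 6) * 2 ^ L + q, csl L u t',
      (4 * L + 13) * 2 ^ L + q]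
    ![.q 0 0, .gc, .gyo0, .loc 0 u, .gyo1]
    (strictMono_five (seg_lt_rsl hp (by omega)) (rsl_lt_seg hu ht (by omega))
      (seg_lt_seg hp (by omega)) (seg_lt_seg hp (by omega)))
    (strictMono_five (seg_lt_seg hq (by omega)) (seg_lt_seg hq (by omega))
      (seg_lt_csl hq (by omega)) (csl_lt_seg hu ht' (by omega)))
    (by
      simp only [Fin.forall_fin_succ, IsEmpty.forall_iff, and_true]
      exact ⟨row_seg (by simp [side]) (rk_gxo0 hp), row_slot hu ht hl,
        row_seg (by simp [side]; omega) (rk_gxo1 hp),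
        row_seg (by simp [side]; omega) (rk_p hp (by omega) (by omega)),
        row_seg (by simp [side]) (rk_z hp)⟩)
    (by
      simp only [Fin.forall_fin_succ, IsEmpty.forall_iff, and_true]
      exact ⟨col_seg (by simp [side]) (ck_q hq (by omega) (by omega)),
        col_seg (by simp [side]; omega) (ck_gc hq), col_seg (by simp [side]; omega) (ck_gyo0 hq),
        col_slot hu ht' hl', col_seg (by simp [side]) (ck_gyo1 hq)⟩)
    (by intro i j hij; fin_cases i <;> fin_cases j <;> simp_all [pat, bit_zero, ent])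
    (by intro i j hij; fin_cases i <;> fin_cases j <;> simp_all [pat])

lemma forced_row (hB : copyCount pat B = 0) (G : Good L u p q (ext' B)) {j : ℕ} (hj : j ≤ L)
    (ih : Forced L u (ext' B) j j) : Forced L u (ext' B) (j + 1) j := by
  intro t t' ht ht' hl hl'
  have hu := G.hu; have hp := G.hp; have hq := G.hq
  have hb : bit L j u < 2 := Nat.mod_lt _ (by omega)
  have hb' : bit L (j + 1) u < 2 := Nat.mod_lt _ (by omega)
  have e1 : rlev L j = j := by simp only [rlev]; omega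
  have e2 : rlev L (2 * L + 2 - j) = j := by simp only [rlev]; omega
  have t1 : j < t := by simp only [rlev] at hl; omega
  have t2 : t < 2 * L + 2 - j := by simp only [rlev] at hl; omega
  have i1 := ih j t' (by omega) ht' e1 hl'
  have i2 := ih (2 * L + 2 - j) t' (by omega) ht' e2 hl'
  exact forced hB G
    ![rsl L u j, rsl L u t, rsl L u (2 * L + 2 - j),
      (2 * L + 7 + 2 * j + bit L j u) * 2 ^ L + p, (4 * L + 10) * 2 ^ L + p]
    ![.loc j u, .loc (j + 1) u, .loc j u, .p j (bit L j u), .z]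
    ![(2 * (j + 1) + bit L (j + 1) u) * 2 ^ L + q, (2 * L + 5) * 2 ^ L + q,
      (2 * L + 7) * 2 ^ L + q, csl L u t', (4 * L + 12) * 2 ^ L + q]
    ![.q (j + 1) (bit L (j + 1) u), .gc, .gy0, .loc j u, .gy2]
    (strictMono_five (rsl_lt_rsl t1) (rsl_lt_rsl t2) (rsl_lt_seg hu (by omega) (by omega))
      (seg_lt_seg hp (by omega)))
    (strictMono_five (seg_lt_seg hq (by omega)) (seg_lt_seg hq (by omega))
      (seg_lt_csl hq (by omega)) (csl_lt_seg hu ht' (by omega)))
    (by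
      simp only [Fin.forall_fin_succ, IsEmpty.forall_iff, and_true]
      exact ⟨row_slot hu (by omega) e1, row_slot hu ht hl, row_slot hu (by omega) e2,
        row_seg (by simp [side]; omega) (rk_p hp hj hb), row_seg (by simp [side]) (rk_z hp)⟩)
    (by
      simp only [Fin.forall_fin_succ, IsEmpty.forall_iff, and_true]
      exact ⟨col_seg (by simp [side]; omega) (ck_q hq (by omega) hb'),
        col_seg (by simp [side]; omega) (ck_gc hq), col_seg (by simp [side]; omega) (ck_gy0 hq),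
        col_slot hu ht' hl', col_seg (by simp [side]) (ck_gy2 hq)⟩)
    (by intro i i' hij; fin_cases i <;> fin_cases i' <;> simp_all [pat, ent])
    (by intro i i' hij; fin_cases i <;> fin_cases i' <;> simp_all [pat])

lemma forced_col (hB : copyCount pat B = 0) (G : Good L u p q (ext' B)) {j : ℕ} (hj : j + 1 ≤ L)
    (ih : Forced L u (ext' B) (j + 1) j) : Forced L u (ext' B) (j + 1) (j + 1) := by
  intro t t' ht ht' hl hl'
  have hu := G.hu; have hp := G.hp; have hq := G.hq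
  have hb' : bit L (j + 1) u < 2 := Nat.mod_lt _ (by omega)
  have e1 : clev L j = j := by simp only [clev]; omega
  have e2 : clev L (2 * L + 1 - j) = j := by simp only [clev]; omega
  have t1 : j < t' := by simp only [clev] at hl'; omega
  have t2 : t' < 2 * L + 1 - j := by simp only [clev] at hl'; omega
  have i1 := ih t j ht (by omega) hl e1
  have i2 := ih t (2 * L + 1 - j) ht (by omega) hl e2
  exact forced hB G
    ![1 * 2 ^ L + p, rsl L u t, (2 * L + 5) * 2 ^ L + p,
      (2 * L + 7 + 2 * (j + 1) + bit L (j + 1) u) * 2 ^ L + p, (4 * L + 10) * 2 ^ L + p]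
    ![.gx0, .loc (j + 1) u, .gx1, .p (j + 1) (bit L (j + 1) u), .z]
    ![(2 * (j + 1) + bit L (j + 1) u) * 2 ^ L + q, (2 * L + 5) * 2 ^ L + q, csl L u j,
      csl L u t', csl L u (2 * L + 1 - j)]
    ![.q (j + 1) (bit L (j + 1) u), .gc, .loc j u, .loc (j + 1) u, .loc j u]
    (strictMono_five (seg_lt_rsl hp (by omega)) (rsl_lt_seg hu ht (by omega))
      (seg_lt_seg hp (by omega)) (seg_lt_seg hp (by omega)))
    (strictMono_five (seg_lt_seg hq (by omega)) (seg_lt_csl hq (by omega))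
      (csl_lt_csl t1) (csl_lt_csl t2))
    (by
      simp only [Fin.forall_fin_succ, IsEmpty.forall_iff, and_true]
      exact ⟨row_seg (by simp [side]) (rk_gx0 hp), row_slot hu ht hl,
        row_seg (by simp [side]; omega) (rk_gx1 hp),
        row_seg (by simp [side]; omega) (rk_p hp hj hb'),
        row_seg (by simp [side]) (rk_z hp)⟩)
    (by
      simp only [Fin.forall_fin_succ, IsEmpty.forall_iff, and_true]
      exact ⟨col_seg (by simp [side]; omega) (ck_q hq (by omega) hb'),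
        col_seg (by simp [side]; omega) (ck_gc hq), col_slot hu (by omega) e1,
        col_slot hu ht' hl', col_slot hu (by omega) e2⟩)
    (by intro i i' hij; fin_cases i <;> fin_cases i' <;> simp_all [pat, ent])
    (by intro i i' hij; fin_cases i <;> fin_cases i' <;> simp_all [pat])

lemma forced_all (hB : copyCount pat B = 0) (G : Good L u p q (ext' B)) :
    ∀ j ≤ L, Forced L u (ext' B) j j ∧ Forced L u (ext' B) (j + 1) j := by
  intro j
  induction j with
  | zero => exact fun h => ⟨forced_base hB G, forced_row hB G h (forced_base hB G)⟩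
  | succ j ih =>
    intro h
    have a := forced_col hB G h (ih (by omega)).2
    exact ⟨a, forced_row hB G h a⟩

lemma not_good (hB : copyCount pat B = 0) : ¬ Good L u p q (ext' B) := by
  intro G
  obtain ⟨f1, f2⟩ := forced_all hB G L le_rfl
  have hu := G.hu; have hp := G.hp; have hq := G.hq; have hg := G.g
  have e0 : rlev L L = L := by simp only [rlev]; omega
  have e1 : rlev L (L + 1) = L + 1 := by simp only [rlev]; omega
  have e2 : rlev L (L + 2) = L := by simp only [rlev]; omega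
  have e3 : clev L L = L := by simp only [clev]; omega
  have i0 := f1 L L (by omega) (by omega) e0 e3
  have i1 := f2 (L + 1) L (by omega) (by omega) e1 e3
  have i2 := f1 (L + 2) L (by omega) (by omega) e2 e3
  have a := row_slot (p := p) hu (show L + 1 < 2 * L + 3 by omega) e1
  have b := col_seg (u := u) (show 4 * L + 11 < side L by simp [side]) (ck_g1 hq)
  have h := forced hB G
    ![rsl L u L, rsl L u (L + 1), rsl L u (L + 2), (4 * L + 9) * 2 ^ L + p,
      (4 * L + 10) * 2 ^ L + p]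
    ![.loc L u, .loc (L + 1) u, .loc L u, .pt, .z]
    ![(2 * L + 4) * 2 ^ L + q, csl L u L, (4 * L + 10) * 2 ^ L + q, (4 * L + 11) * 2 ^ L + q,
      (4 * L + 12) * 2 ^ L + q]
    ![.qt, .loc L u, .gy1, .g1, .gy2]
    (strictMono_five (rsl_lt_rsl (by omega)) (rsl_lt_rsl (by omega))
      (rsl_lt_seg hu (by omega) (by omega)) (seg_lt_seg hp (by omega)))
    (strictMono_five (seg_lt_csl hq (by omega)) (csl_lt_seg hu (by omega) (by omega))
      (seg_lt_seg hq (by omega)) (seg_lt_seg hq (by omega)))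
    (by
      simp only [Fin.forall_fin_succ, IsEmpty.forall_iff, and_true]
      exact ⟨row_slot hu (by omega) e0, a, row_slot hu (by omega) e2,
        row_seg (by simp [side]) (rk_pt hp), row_seg (by simp [side]) (rk_z hp)⟩)
    (by
      simp only [Fin.forall_fin_succ, IsEmpty.forall_iff, and_true]
      exact ⟨col_seg (by simp [side]; omega) (ck_qt hq), col_slot hu (by omega) e3,
        col_seg (by simp [side]) (ck_gy1 hq), b,
        col_seg (by simp [side]) (ck_gy2 hq)⟩)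
    (by intro i i' hij; fin_cases i <;> fin_cases i' <;> simp_all [pat, ent])
    (by intro i i' hij; fin_cases i <;> fin_cases i' <;> simp_all [pat])
  have h' := hg _ _ _ _ a b (.inr (by simp))
  simp [h'] at h

end steps

/-- Far from all matrices without a copy. -/
theorem far_mat (B : Fin (side L * 2 ^ L) → Fin (side L * 2 ^ L) → Bool)
    (hB : copyCount pat B = 0) :
    (side L * 2 ^ L) ^ 2 ≤ 3 * side L ^ 2 * diffCount (mat L) B := by
  have hN0 : 0 < (2 ^ L) := Nat.two_pow_pos L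
  let D := {rc : Fin (side L * (2 ^ L)) × Fin (side L * (2 ^ L)) // mat L rc.1 rc.2 ≠ B rc.1 rc.2}
  let w : ℕ → Fin (2 ^ L) := fun a => ⟨a % (2 ^ L), Nat.mod_lt _ hN0⟩
  let dec : Fin 3 × D × Fin (2 ^ L) → Fin (2 ^ L) × Fin (2 ^ L) × Fin (2 ^ L) := fun y =>
    ![(y.2.2, w y.2.1.1.1, w y.2.1.1.2),
      (w (((y.2.1.1.1 : ℕ) - 2 * (2 ^ L)) / (2 * L + 3)), y.2.2, w y.2.1.1.2),
      (w (((y.2.1.1.2 : ℕ) - (2 * L + 8) * (2 ^ L)) / (2 * L + 2)), w y.2.1.1.1, y.2.2)] y.1
  have hwseg : ∀ (x : Fin (2 ^ L)) (s : ℕ), w (s * (2 ^ L) + x) = x := fun x s => Fin.ext (by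
    show (s * (2 ^ L) + (x : ℕ)) % (2 ^ L) = x
    rw [Nat.add_comm, Nat.add_mul_mod_self_right, Nat.mod_eq_of_lt x.isLt])
  have hwr : ∀ (x : Fin (2 ^ L)) (t : ℕ), t < 2 * L + 3 →
      w ((rsl L x t - 2 * (2 ^ L)) / (2 * L + 3)) = x := fun x t ht => Fin.ext (by
    show (rsl L x t - 2 * (2 ^ L)) / (2 * L + 3) % (2 ^ L) = x
    have h := rk_rsl (L := L) (u := x) x.isLt ht
    rw [← rk_leaf (by rw [h]; rfl), h]
    exact Nat.mod_eq_of_lt x.isLt)
  have hwc : ∀ (x : Fin (2 ^ L)) (t : ℕ), t < 2 * L + 2 →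
      w ((csl L x t - (2 * L + 8) * (2 ^ L)) / (2 * L + 2)) = x := fun x t ht => Fin.ext (by
    show (csl L x t - (2 * L + 8) * (2 ^ L)) / (2 * L + 2) % (2 ^ L) = x
    have h := ck_csl (L := L) (u := x) x.isLt ht
    rw [← ck_leaf (by rw [h]; rfl), h]
    exact Nat.mod_eq_of_lt x.isLt)
  have surj : Function.Surjective dec := by
    rintro ⟨u, p, q⟩
    by_contra hx
    refine not_good hB (u := u) (p := p) (q := q) ⟨u.isLt, p.isLt, q.isLt, ?_⟩
    intro r c K K' hr hc hne
    have hrn := hr.lt u.isLt p.isLt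
    have hcn := hc.lt u.isLt q.isLt
    rw [ext', dif_pos ⟨hrn, hcn⟩]
    by_contra hd
    have hd' : mat L ⟨r, hrn⟩ ⟨c, hcn⟩ ≠ B ⟨r, hrn⟩ ⟨c, hcn⟩ := by
      simp only [mat, hr.2, hc.2]
      exact fun h => hd h.symm
    let d : D := ⟨(⟨r, hrn⟩, ⟨c, hcn⟩), hd'⟩
    obtain ⟨⟨s, -, rfl⟩ | ⟨t, ht, rfl⟩, hK⟩ := hr
    · obtain ⟨⟨s', -, rfl⟩ | ⟨t', ht', rfl⟩, hK'⟩ := hc
      · exact hx ⟨(0, d, u), by simp [dec, d, hwseg]⟩
      · exact hx ⟨(2, d, q), by simp [dec, d, hwseg, hwc _ _ ht']⟩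
    · obtain ⟨⟨s', -, rfl⟩ | ⟨t', ht', rfl⟩, hK'⟩ := hc
      · exact hx ⟨(1, d, p), by simp [dec, d, hwseg, hwr _ _ ht]⟩
      · rw [rk_rsl u.isLt ht] at hK
        rw [ck_csl u.isLt ht'] at hK'
        subst hK hK'
        simp at hne
  have hc := Nat.card_le_card_of_surjective dec surj
  simp only [Nat.card_prod, Nat.card_fin] at hc
  have hd : (2 ^ L) * (2 ^ L) ≤ 3 * diffCount (mat L) B := by
    have e : Nat.card D = diffCount (mat L) B := rfl
    rw [e] at hc
    refine Nat.le_of_mul_le_mul_right ?_ hN0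
    linarith
  calc (side L * (2 ^ L)) ^ 2 = side L ^ 2 * ((2 ^ L) * (2 ^ L)) := by ring
    _ ≤ side L ^ 2 * (3 * diffCount (mat L) B) := Nat.mul_le_mul_left _ hd
    _ = _ := by ring

end Vale.Agent.P037.Hier
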