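import Vale.Agent.P037.Hier.Defs

/-!
Monotonicity of the layout and elementary facts on ancestors and bits.
-/

namespace Vale.Agent.P037.Hier

variable {L : ℕ}

@[simp] lemma RK.rank_gxo0  : RK.gxo0.rank = 0 := rfl
@[simp] lemma RK.rank_gx0  : RK.gx0.rank = 1 := rfl
@[simp] lemma RK.rank_loc (j u : ℕ) : (RK.loc j u).rank = 2 := rfl
@[simp] lemma RK.rank_gx1  : RK.gx1.rank = 3 := rfl
@[simp] lemma RK.rank_gxo1  : RK.gxo1.rank = 4 := rfl
@[simp] lemma RK.rank_p (i b : ℕ) : (RK.p i b).rank = 5 := rfl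
@[simp] lemma RK.rank_pt  : RK.pt.rank = 6 := rfl
@[simp] lemma RK.rank_z  : RK.z.rank = 7 := rfl
@[simp] lemma CK.rank_q (j a : ℕ) : (CK.q j a).rank = 0 := rfl
@[simp] lemma CK.rank_qt  : CK.qt.rank = 1 := rfl
@[simp] lemma CK.rank_gc  : CK.gc.rank = 2 := rfl
@[simp] lemma CK.rank_gyo0  : CK.gyo0.rank = 3 := rfl
@[simp] lemma CK.rank_gy0  : CK.gy0.rank = 4 := rfl
@[simp] lemma CK.rank_loc (i v : ℕ) : (CK.loc i v).rank = 5 := rfl
@[simp] lemma CK.rank_gy1  : CK.gy1.rank = 6 := rfl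
@[simp] lemma CK.rank_g1  : CK.g1.rank = 7 := rfl
@[simp] lemma CK.rank_gy2  : CK.gy2.rank = 8 := rfl
@[simp] lemma CK.rank_gyo1  : CK.gyo1.rank = 9 := rfl
@[simp] lemma CK.rank_z  : CK.z.rank = 10 := rfl

lemma seg_lt {L r k : ℕ} : r / 2 ^ L < k ↔ r < k * 2 ^ L :=
  Nat.div_lt_iff_lt_mul (Nat.two_pow_pos L)

lemma rk_ok {r : ℕ} : (rk L r).Ok L := by
  simp only [rk]
  split_ifs with h0 h1 h2 h3 h4 h5 <;> try trivial
  · refine ⟨by omega, ?_⟩
    rw [Nat.div_lt_iff_lt_mul (by omega)]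
    have h2' := seg_lt.1 h2
    have e : (2 * L + 5) * 2 ^ L = 2 * (L * 2 ^ L) + 5 * 2 ^ L := by ring
    have e' : 2 ^ L * (2 * L + 3) = 2 * (L * 2 ^ L) + 3 * 2 ^ L := by ring
    have := Nat.two_pow_pos L
    rw [e] at h2'
    rw [e']
    omega
  · exact ⟨by omega, by omega⟩

lemma ck_ok {c : ℕ} : (ck L c).Ok L := by
  simp only [ck]
  split_ifs with h0 h1 h2 h3 h4 h5 <;> try trivial
  · exact ⟨by omega, by omega⟩
  · refine ⟨by omega, ?_⟩
    rw [Nat.div_lt_iff_lt_mul (by omega)]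
    have h5' := seg_lt.1 h5
    have e : (4 * L + 10) * 2 ^ L = 4 * (L * 2 ^ L) + 10 * 2 ^ L := by ring
    have e' : 2 ^ L * (2 * L + 2) = 2 * (L * 2 ^ L) + 2 * 2 ^ L := by ring
    have e'' : (2 * L + 8) * 2 ^ L = 2 * (L * 2 ^ L) + 8 * 2 ^ L := by ring
    have := Nat.two_pow_pos L
    rw [e] at h5'
    rw [e', e'']
    omega

/-- The rank of a row, from its segment. -/
def rrank (L s : ℕ) : ℕ :=
  if s < 2 then s else if s < 2 * L + 5 then 2 else if s < 2 * L + 7 then s - (2 * L + 2)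
  else if s < 4 * L + 9 then 5 else min (s - (4 * L + 3)) 7

/-- The rank of a column, from its segment. -/
def crank (L s : ℕ) : ℕ :=
  if s < 2 * L + 4 then 0 else if s < 2 * L + 8 then s - (2 * L + 3)
  else if s < 4 * L + 10 then 5 else min (s - (4 * L + 4)) 10

lemma rk_rank (r : ℕ) : (rk L r).rank = rrank L (r / 2 ^ L) := by
  rw [rk]
  simp only [apply_ite RK.rank]
  simp only [RK.rank, rrank]
  generalize r / 2 ^ L = s
  split_ifs <;> omega

lemma ck_rank (c : ℕ) : (ck L c).rank = crank L (c / 2 ^ L) := by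
  rw [ck]
  simp only [apply_ite CK.rank]
  simp only [CK.rank, crank]
  generalize c / 2 ^ L = s
  split_ifs <;> omega

lemma rrank_mono {s s' : ℕ} (h : s ≤ s') : rrank L s ≤ rrank L s' := by
  simp only [rrank]
  split_ifs <;> omega

lemma crank_mono {s s' : ℕ} (h : s ≤ s') : crank L s ≤ crank L s' := by
  simp only [crank]
  split_ifs <;> omega

lemma rk_leaf {r : ℕ} (h : (rk L r).rank = 2) :
    (rk L r).leaf = (r - 2 * 2 ^ L) / (2 * L + 3) := by
  revert h
  simp only [rk]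
  split_ifs <;> simp [RK.rank, RK.leaf]

lemma ck_leaf {c : ℕ} (h : (ck L c).rank = 5) :
    (ck L c).leaf = (c - (2 * L + 8) * 2 ^ L) / (2 * L + 2) := by
  revert h
  simp only [ck]
  split_ifs <;> simp [CK.rank, CK.leaf]

lemma rk_le {r r' : ℕ} (h : r ≤ r') : (rk L r).Le (rk L r') := by
  refine ⟨?_, fun a b => ?_⟩
  · rw [rk_rank, rk_rank]; exact rrank_mono (Nat.div_le_div_right h)
  · rw [rk_leaf a, rk_leaf b]; exact Nat.div_le_div_right (Nat.sub_le_sub_right h _)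

lemma ck_le {c c' : ℕ} (h : c ≤ c') : (ck L c).Le (ck L c') := by
  refine ⟨?_, fun a b => ?_⟩
  · rw [ck_rank, ck_rank]; exact crank_mono (Nat.div_le_div_right h)
  · rw [ck_leaf a, ck_leaf b]; exact Nat.div_le_div_right (Nat.sub_le_sub_right h _)

lemma pre_zero {u : ℕ} (h : u < 2 ^ L) : pre L 0 u = 0 := by
  simp [pre, h]

lemma bit_zero {u : ℕ} (h : u < 2 ^ L) : bit L 0 u = 0 := by
  simp [bit, Nat.div_eq_of_lt h]

lemma pre_mono {i u v : ℕ} (h : u ≤ v) : pre L i u ≤ pre L i v :=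
  Nat.div_le_div_right h

lemma pre_mid {i a b c : ℕ} (h1 : a ≤ b) (h2 : b ≤ c) (h : pre L i a = pre L i c) :
    pre L i b = pre L i a := by
  have := pre_mono (L := L) (i := i) h1
  have := pre_mono (L := L) (i := i) h2
  omega

lemma pre_coarse {k i u v : ℕ} (hk : k ≤ i) (h : pre L i u = pre L i v) :
    pre L k u = pre L k v := by
  have e : 2 ^ (L - k) = 2 ^ (L - i) * 2 ^ ((L - k) - (L - i)) := by
    rw [← pow_add]; congr 1; omega
  simp only [pre] at h ⊢
  rw [e, ← Nat.div_div_eq_div_mul, ← Nat.div_div_eq_div_mul, h]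

lemma bit_of_pre {i u v : ℕ} (h : pre L i u = pre L i v) : bit L i u = bit L i v := by
  simp only [bit, pre] at h ⊢; rw [h]

lemma pre_succ {i u v : ℕ} (h1 : pre L (i - 1) u = pre L (i - 1) v)
    (h2 : bit L i u = bit L i v) (hi : i ≤ L) : pre L i u = pre L i v := by
  rcases Nat.eq_zero_or_pos i with h | h
  · subst h; simpa using h1
  · have e : 2 ^ (L - (i - 1)) = 2 ^ (L - i) * 2 := by
      rw [← pow_succ]; congr 1; omega
    simp only [pre, bit] at *
    rw [e, ← Nat.div_div_eq_div_mul, ← Nat.div_div_eq_div_mul] at h1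
    omega

/-- Pinning: a column between two hits of a row, with a matching bit, is hit by the row. -/
lemma col_pin {j u i i0 i2 v v0 v2 : ℕ} (h0 : j = i0 ∨ j = i0 + 1)
    (e0 : pre L i0 u = pre L i0 v0) (h2 : j = i2 ∨ j = i2 + 1) (e2 : pre L i2 u = pre L i2 v2)
    (a : v0 ≤ v) (b : v ≤ v2) (hi : i ≤ L) (hij : j = i ∧ bit L i v = bit L i u ∨ j = i + 1) :
    pre L i u = pre L i v := by
  have m0 : pre L (min i0 i2) u = pre L (min i0 i2) v0 := pre_coarse (by omega) e0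
  have m2 : pre L (min i0 i2) u = pre L (min i0 i2) v2 := pre_coarse (by omega) e2
  have hm : pre L (min i0 i2) u = pre L (min i0 i2) v :=
    (pre_mid a b (m0.symm.trans m2)).trans m0.symm |>.symm
  by_cases hle : i ≤ min i0 i2
  · exact pre_coarse hle hm
  · rcases hij with ⟨hji, hb⟩ | hji
    · exact pre_succ (pre_coarse (by omega) hm) hb.symm hi
    · omega

end Vale.Agent.P037.Hier
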