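import Vale.Agent.P037.Hier.Count
import Vale.Agent.P037.Hier.Far

/-!
No polynomial removal bound for the pattern.
-/

namespace Vale.Agent.P037.Hier

open Filter Topology

lemma far_mat_real {L : ℕ} :
    Far pat (1 / (3 * (4 * (L : ℝ) + 16) ^ 2)) (mat L) := by
  intro B hB
  have h := far_mat B hB
  have h' : ((side L * 2 ^ L : ℕ) : ℝ) ^ 2
      ≤ 3 * (side L : ℝ) ^ 2 * (diffCount (mat L) B : ℝ) := by exact_mod_cast h
  have hs : (side L : ℝ) = 4 * (L : ℝ) + 16 := by simp [side]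
  rw [hs] at h'
  rw [div_mul_eq_mul_div, one_mul, div_le_iff₀ (by positivity)]
  linarith

lemma copyCount_mat_real {L : ℕ} (hL : 1 ≤ L) :
    (copyCount pat (mat L) : ℝ) * 2 ^ L ≤ ((side L * 2 ^ L : ℕ) : ℝ) ^ 10 := by
  exact_mod_cast copyCount_mat_le hL

/-- A pattern with a superpolynomial removal function. -/
theorem not_polynomial_removal :
    ∃ H : Fin 5 → Fin 5 → Bool,
      (∀ L : ℕ, 1 ≤ L → ∃ n : ℕ, 1 ≤ n ∧ ∃ A : Fin n → Fin n → Bool,
        Far H (1 / (3 * (4 * (L : ℝ) + 16) ^ 2)) A ∧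
          (copyCount H A : ℝ) * 2 ^ L ≤ (n : ℝ) ^ 10) ∧
      ¬ ∃ c C : ℝ, 0 < c ∧ 0 < C ∧ ∀ n : ℕ, 1 ≤ n → ∀ ε : ℝ, 0 < ε → ε < 1 →
        ∀ A : Fin n → Fin n → Bool, Far H ε A →
          c * ε ^ C * (n : ℝ) ^ (2 * 5) ≤ (copyCount H A : ℝ) := by
  have hn : ∀ L, 1 ≤ side L * 2 ^ L := fun L =>
    Nat.mul_pos (by simp [side]) (Nat.two_pow_pos L)
  refine ⟨pat, fun L hL => ⟨side L * 2 ^ L, hn L, mat L, far_mat_real, copyCount_mat_real hL⟩, ?_⟩
  rintro ⟨c, C, hc, -, h⟩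
  set K := ⌈C⌉₊ with hK
  have t := tendsto_pow_const_div_const_pow_of_one_lt (2 * K) (r := (2 : ℝ)) (by norm_num)
  obtain ⟨L, hL, hlt⟩ : ∃ L : ℕ, 1 ≤ L ∧ (L : ℝ) ^ (2 * K) / 2 ^ L < c / 1200 ^ K := by
    have e := (t.eventually_lt_const (show (0 : ℝ) < c / 1200 ^ K by positivity)).and
      (eventually_ge_atTop 1)
    obtain ⟨L, h1, h2⟩ := e.exists
    exact ⟨L, h2, h1⟩
  rw [div_lt_div_iff₀ (by positivity) (by positivity)] at hlt
  have hL' : (1 : ℝ) ≤ L := by exact_mod_cast hL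
  set b : ℝ := 3 * (4 * (L : ℝ) + 16) ^ 2 with hb
  have hb1 : 1 < b := by rw [hb]; nlinarith
  have hε : 0 < 1 / b := by positivity
  have hε1 : 1 / b < 1 := by rw [div_lt_one (by positivity)]; exact hb1
  have key := h _ (hn L) _ hε hε1 (mat L) far_mat_real
  have key2 := copyCount_mat_real hL
  have hpow : (1 / b) ^ K ≤ (1 / b) ^ C := by
    rw [← Real.rpow_natCast]
    exact Real.rpow_le_rpow_of_exponent_ge hε hε1.le (Nat.le_ceil C)
  set m : ℝ := ((side L * 2 ^ L : ℕ) : ℝ) with hm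
  have hm0 : 0 < m := by rw [hm]; exact_mod_cast hn L
  have h3 : c * (1 / b) ^ K * m ^ 10 * 2 ^ L ≤ 1 * m ^ 10 := by
    calc c * (1 / b) ^ K * m ^ 10 * 2 ^ L ≤ c * (1 / b) ^ C * m ^ (2 * 5) * 2 ^ L := by
          norm_num
          gcongr
          simpa using hpow
      _ ≤ (copyCount pat (mat L) : ℝ) * 2 ^ L := by gcongr
      _ ≤ 1 * m ^ 10 := by rw [one_mul]; exact key2
  have h4 : c * 2 ^ L ≤ b ^ K := by
    have h5 : c * (1 / b) ^ K * 2 ^ L ≤ 1 :=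
      le_of_mul_le_mul_right (by linarith) (pow_pos hm0 10)
    rw [div_pow, one_pow] at h5
    field_simp at h5
    linarith
  have h6 : b ^ K ≤ 1200 ^ K * (L : ℝ) ^ (2 * K) := by
    rw [pow_mul, ← mul_pow]
    apply pow_le_pow_left₀ (by positivity)
    rw [hb]; nlinarith
  linarith

end Vale.Agent.P037.Hier
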